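import Vale.Agent.Lib.P078S.Fine

/-!
# P078S Lower: `1/ε ≤ r`

Let `f_j ∈ A`, `j : Fin N`, be mutually orthogonal nonzero projections (`exists_orth`), `ξ_j` unit
vectors with `f_j ξ_j = ξ_j` (they are orthonormal), `ξ = N^(-1/2) ∑ ξ_j` (a unit vector) and
`x = 1 - 2 |ξ⟩⟨ξ|` (self-adjoint, `x * x = 1`, so `‖x‖ = 1`; `InnerProductSpace.rankOne` or
`x = 1 - 2 • (ℂ ∙ ξ).starProjection`, or a `reflection`).  Apply `SoPavable` with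
`F = {ξ, ξ_1, .., ξ_N}` and `δ`.  Let `T = ∑ p_i x p_i - a`, `‖T‖ ≤ r + 1`.  For `ψ ∈ F`, `‖ψ‖ = 1`:
`|⟪ψ, T ψ⟫| ≤ ‖q T q‖ + 2 (r+1) δ ≤ ε + 2 (r+1) δ`  (`ψ = q ψ + (1-q) ψ`).
With `α = re ⟪ξ, a ξ⟫ = (1/N) ∑ re ⟪ξ_j, a ξ_j⟫` (`⟪ξ_i, a ξ_j⟫ = ⟪f_i ξ_i, a f_j ξ_j⟫ = 0` for
`i ≠ j` since `a` commutes with `f_i`):
`re ⟪ξ, T ξ⟫ = 1 - 2 ∑_c ‖p_c ξ‖⁴ - α ≤ 1 - 2/r - α` (Cauchy-Schwarz, `∑ ‖p_c ξ‖² = 1`), so
`1 - α ≥ 2/r - ε - 2(r+1)δ`;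
`(1/N) ∑_j re ⟪ξ_j, T ξ_j⟫ = 1 - (2/N) ∑_c ∑_j |⟪p_c ξ, ξ_j⟫|² - α ≥ 1 - 2/N - α` (Bessel,
`Orthonormal.sum_inner_products_le`), so `1 - α ≤ ε + 2(r+1)δ + 2/N`.
Hence `1/r ≤ ε + 2(r+1)δ + 1/N` for all `δ > 0`, `N ≥ 1` (`r ≥ 1` because `∑ p_i = 1 ≠ 0`).
Here `⟪ψ, ∑ p_c x p_c ψ⟫ = ∑_c ⟪p_c ψ, x p_c ψ⟫ = ∑_c (‖p_c ψ‖² - 2 |⟪ξ, p_c ψ⟫|²)`.
-/

namespace Vale.Agent.P078

open Finset
open scoped InnerProductSpace

universe u

variable {H : Type u} [NormedAddCommGroup H] [InnerProductSpace ℂ H] [CompleteSpace H]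
  {A : StarSubalgebra ℂ (H →L[ℂ] H)}

/-- the test operator -/
private noncomputable def lowerX (ξ : H) : H →L[ℂ] H :=
  1 - (2 : ℂ) • InnerProductSpace.rankOne ℂ ξ ξ

omit [CompleteSpace H] in
private theorem lower_X_apply (ξ v : H) : lowerX ξ v = v - (2 * ⟪ξ, v⟫_ℂ) • ξ := by
  simp [lowerX, InnerProductSpace.rankOne_apply, smul_smul]

private theorem lower_X_sa (ξ : H) : IsSelfAdjoint (lowerX ξ) := by
  rw [ContinuousLinearMap.isSelfAdjoint_iff_isSymmetric]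
  intro v w
  simp only [ContinuousLinearMap.coe_coe, lower_X_apply, inner_sub_left, inner_sub_right,
    inner_smul_left, inner_smul_right, map_mul, inner_conj_symm]
  rw [Complex.conj_ofNat]
  ring

private theorem lower_X_norm [Nontrivial H] {ξ : H} (h : ‖ξ‖ = 1) : ‖lowerX ξ‖ = 1 := by
  have h1 : lowerX ξ * lowerX ξ = 1 := by
    ext v
    rw [mul_apply_eq_comp, lower_X_apply ξ (lowerX ξ v), lower_X_apply,
      inner_sub_right, inner_smul_right, inner_self_eq_norm_sq_to_K, h]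
    simp only [one_apply_eq_self]
    rw [sub_sub, ← add_smul]
    have : (2 * ⟪ξ, v⟫_ℂ + 2 * (⟪ξ, v⟫_ℂ - 2 * ⟪ξ, v⟫_ℂ * ((1 : ℝ) : ℂ) ^ 2)) = 0 := by
      push_cast
      ring
    erw [this]
    simp
  have h2 : ‖star (lowerX ξ) * lowerX ξ‖ = ‖lowerX ξ‖ * ‖lowerX ξ‖ := CStarRing.norm_star_mul_self
  rw [(lower_X_sa ξ).star_eq, h1, norm_one] at h2
  have h3 : 0 ≤ ‖lowerX ξ‖ := norm_nonneg _
  nlinarith

private theorem lower_proj_inner {p : H →L[ℂ] H} (hp : IsStarProjection p) (v w : H) :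
    ⟪v, p w⟫_ℂ = ⟪p v, w⟫_ℂ :=
  ((ContinuousLinearMap.isSelfAdjoint_iff_isSymmetric.1 hp.isSelfAdjoint) v w).symm

private theorem lower_proj_sq {p : H →L[ℂ] H} (hp : IsStarProjection p) (v : H) :
    p (p v) = p v := by
  have := hp.isIdempotentElem
  rw [← mul_apply_eq_comp, this.eq]

private theorem lower_proj_norm_sq {p : H →L[ℂ] H} (hp : IsStarProjection p) (v : H) :
    ⟪v, p v⟫_ℂ = ((‖p v‖ ^ 2 : ℝ) : ℂ) := by
  rw [← lower_proj_sq hp v, lower_proj_inner hp, lower_proj_sq hp v,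
    inner_self_eq_norm_sq_to_K]
  norm_cast

private theorem lower_proj_norm_le {p : H →L[ℂ] H} (hp : IsStarProjection p) (v : H) :
    ‖p v‖ ≤ ‖v‖ := by
  have h1 := lower_proj_norm_sq hp v
  have h2 : ‖⟪v, p v⟫_ℂ‖ ≤ ‖v‖ * ‖p v‖ := norm_inner_le_norm _ _
  rw [h1, Complex.norm_real, Real.norm_of_nonneg (sq_nonneg _)] at h2
  by_contra h3
  push Not at h3
  have h4 : 0 ≤ ‖v‖ := norm_nonneg _
  nlinarith

private theorem lower_part_norm {r : ℕ} {p : Fin r → H →L[ℂ] H} (hp : IsPartition A p) (v : H) :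
    ∑ c, ‖p c v‖ ^ 2 = ‖v‖ ^ 2 := by
  have h1 : ⟪v, (∑ c, p c) v⟫_ℂ = ((∑ c, ‖p c v‖ ^ 2 : ℝ) : ℂ) := by
    rw [_root_.sum_apply, inner_sum]
    push_cast
    refine Finset.sum_congr rfl fun c _ => ?_
    rw [lower_proj_norm_sq (hp.proj c)]
    push_cast
    rfl
  rw [hp.sum, one_apply_eq_self, inner_self_eq_norm_sq_to_K] at h1
  apply Complex.ofReal_injective
  rw [← h1]
  push_cast
  rfl

private theorem lower_pinch {r : ℕ} {p : Fin r → H →L[ℂ] H} (hp : IsPartition A p) (ξ ψ : H) :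
    (⟪ψ, (∑ c, p c * lowerX ξ * p c) ψ⟫_ℂ).re = ‖ψ‖ ^ 2 - 2 * ∑ c, ‖⟪ξ, p c ψ⟫_ℂ‖ ^ 2 := by
  rw [_root_.sum_apply, inner_sum, Complex.re_sum, ← lower_part_norm hp ψ,
    Finset.mul_sum, ← Finset.sum_sub_distrib]
  refine Finset.sum_congr rfl fun c _ => ?_
  rw [mul_apply_eq_comp, mul_apply_eq_comp, lower_proj_inner (hp.proj c),
    lower_X_apply, inner_sub_right, inner_smul_right, inner_self_eq_norm_sq_to_K,
    ← inner_conj_symm (p c ψ) ξ, mul_assoc, Complex.mul_conj, Complex.sub_re,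
    Complex.normSq_eq_norm_sq]
  have h1 : ((2 : ℂ) * ((‖⟪ξ, p c ψ⟫_ℂ‖ ^ 2 : ℝ) : ℂ)).re = 2 * ‖⟪ξ, p c ψ⟫_ℂ‖ ^ 2 := by
    rw [show (2 : ℂ) = ((2 : ℝ) : ℂ) by norm_num, ← Complex.ofReal_mul, Complex.ofReal_re]
  rw [h1]
  congr 1
  have h2 : ((‖p c ψ‖ : ℂ) ^ 2).re = ‖p c ψ‖ ^ 2 := by
    rw [← Complex.ofReal_pow, Complex.ofReal_re]
  exact h2

private theorem lower_corner {T q : H →L[ℂ] H} (hq : IsStarProjection q) {ψ : H} (hψ : ‖ψ‖ = 1)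
    {K δ e : ℝ} (hT : ‖T‖ ≤ K) (h1 : ‖(1 - q) ψ‖ < δ) (h2 : ‖q * T * q‖ ≤ e) :
    |(⟪ψ, T ψ⟫_ℂ).re| ≤ e + 2 * K * δ := by
  have hK : 0 ≤ K := (norm_nonneg _).trans hT
  have e1 : ⟪ψ, T ψ⟫_ℂ = ⟪ψ, (q * T * q) ψ⟫_ℂ + (⟪(1 - q) ψ, T (q ψ)⟫_ℂ + ⟪ψ, T ((1 - q) ψ)⟫_ℂ) := by
    simp only [mul_apply_eq_comp, sub_apply,
      one_apply_eq_self, map_sub, inner_sub_left, inner_sub_right]
    rw [lower_proj_inner hq]
    ring
  have b1 : ‖⟪ψ, (q * T * q) ψ⟫_ℂ‖ ≤ e := by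
    refine (norm_inner_le_norm _ _).trans ?_
    rw [hψ, one_mul]
    refine ((q * T * q).le_opNorm ψ).trans ?_
    rw [hψ, mul_one]
    exact h2
  have b2 : ‖⟪(1 - q) ψ, T (q ψ)⟫_ℂ‖ ≤ K * δ := by
    refine (norm_inner_le_norm _ _).trans ?_
    have c1 : ‖T (q ψ)‖ ≤ K := by
      refine (T.le_opNorm _).trans ?_
      have c2 : ‖q ψ‖ ≤ 1 := (lower_proj_norm_le hq ψ).trans hψ.le
      calc ‖T‖ * ‖q ψ‖ ≤ K * 1 := mul_le_mul hT c2 (norm_nonneg _) hK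
        _ = K := mul_one _
    calc ‖(1 - q) ψ‖ * ‖T (q ψ)‖ ≤ δ * K :=
          mul_le_mul h1.le c1 (norm_nonneg _) ((norm_nonneg _).trans h1.le)
      _ = K * δ := mul_comm _ _
  have b3 : ‖⟪ψ, T ((1 - q) ψ)⟫_ℂ‖ ≤ K * δ := by
    refine (norm_inner_le_norm _ _).trans ?_
    rw [hψ, one_mul]
    exact (T.le_opNorm _).trans (mul_le_mul hT h1.le (norm_nonneg _) hK)
  calc |(⟪ψ, T ψ⟫_ℂ).re| ≤ ‖⟪ψ, T ψ⟫_ℂ‖ := Complex.abs_re_le_norm _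
    _ ≤ ‖⟪ψ, (q * T * q) ψ⟫_ℂ‖ + ‖⟪(1 - q) ψ, T (q ψ)⟫_ℂ + ⟪ψ, T ((1 - q) ψ)⟫_ℂ‖ := by
        rw [e1]
        exact norm_add_le _ _
    _ ≤ ‖⟪ψ, (q * T * q) ψ⟫_ℂ‖ + (‖⟪(1 - q) ψ, T (q ψ)⟫_ℂ‖ + ‖⟪ψ, T ((1 - q) ψ)⟫_ℂ‖) := by
        gcongr
        exact norm_add_le _ _
    _ ≤ e + (K * δ + K * δ) := by gcongr
    _ = e + 2 * K * δ := by ring

/-- the norm of the difference of a pinching and `a` -/
private theorem lower_norm_T {r : ℕ} {p : Fin r → H →L[ℂ] H} (hp : ∀ c, IsStarProjection (p c))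
    {x a : H →L[ℂ] H} (hx : ‖x‖ = 1) (ha : ‖a‖ ≤ 1) :
    ‖∑ c, p c * x * p c - a‖ ≤ (r : ℝ) + 1 := by
  have h1 : ∀ c, ‖p c‖ ≤ 1 := fun c =>
    ContinuousLinearMap.opNorm_le_bound _ zero_le_one fun v => by
      rw [one_mul]
      exact lower_proj_norm_le (hp c) v
  have h2 : ∀ c, ‖p c * x * p c‖ ≤ 1 := fun c => by
    calc ‖p c * x * p c‖ ≤ ‖p c‖ * ‖x‖ * ‖p c‖ :=
          (norm_mul_le _ _).trans (mul_le_mul_of_nonneg_right (norm_mul_le _ _) (norm_nonneg _))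
      _ ≤ 1 * 1 * 1 := by
          rw [hx]
          have := h1 c
          have h0 := norm_nonneg (p c)
          nlinarith
      _ = 1 := by norm_num
  calc ‖∑ c, p c * x * p c - a‖ ≤ ‖∑ c, p c * x * p c‖ + ‖a‖ := norm_sub_le _ _
    _ ≤ (∑ c : Fin r, ‖p c * x * p c‖) + 1 := add_le_add (norm_sum_le _ _) ha
    _ ≤ (∑ _c : Fin r, (1 : ℝ)) + 1 := by
        gcongr with c _
        exact h2 c
    _ = (r : ℝ) + 1 := by simp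

private theorem lower_offdiag (h : MA A) {f g a : H →L[ℂ] H} (hf : f ∈ A)
    (hpf : IsStarProjection f) (ha : a ∈ A) (hfg : f * g = 0) {v w : H} (hv : f v = v)
    (hw : g w = w) : ⟪v, a w⟫_ℂ = 0 := by
  have e1 : f (a w) = 0 := by
    rw [← mul_apply_eq_comp, h.comm f hf a ha, mul_apply_eq_comp, ← hw, ← mul_apply_eq_comp f g, hfg]
    simp
  rw [← hv, ← lower_proj_inner hpf, e1, inner_zero_right]

omit [CompleteSpace H] in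
private theorem lower_sum_inner {N : ℕ} (a : H →L[ℂ] H) (v : Fin N → H)
    (ho : ∀ i j, i ≠ j → ⟪v i, a (v j)⟫_ℂ = 0) (c : ℂ) :
    ⟪c • ∑ i, v i, a (c • ∑ i, v i)⟫_ℂ = ((‖c‖ ^ 2 : ℝ) : ℂ) * ∑ i, ⟪v i, a (v i)⟫_ℂ := by
  rw [map_smul, inner_smul_left, inner_smul_right, map_sum, sum_inner, ← mul_assoc,
    Complex.conj_mul']
  push_cast
  congr 1
  refine Finset.sum_congr rfl fun i _ => ?_
  rw [inner_sum]
  exact Finset.sum_eq_single i (fun j _ hj => ho i j hj.symm) (fun hi => absurd (Finset.mem_univ i) hi)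

private theorem lower_unit {f : H →L[ℂ] H} (hpf : IsStarProjection f) (h0 : f ≠ 0) :
    ∃ v : H, ‖v‖ = 1 ∧ f v = v := by
  have h1 : ∃ w, f w ≠ 0 := by
    by_contra hc
    push Not at hc
    exact h0 (ContinuousLinearMap.ext hc)
  obtain ⟨w, hw⟩ := h1
  have hn : ‖f w‖ ≠ 0 := norm_ne_zero_iff.2 hw
  refine ⟨((‖f w‖⁻¹ : ℝ) : ℂ) • f w, ?_, ?_⟩
  · rw [norm_smul, Complex.norm_real, Real.norm_of_nonneg (inv_nonneg.2 (norm_nonneg _)),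
      inv_mul_cancel₀ hn]
  · rw [map_smul, lower_proj_sq hpf]

/-- the estimate, given the data -/
private theorem lower_core [Nontrivial H] (h : MA A) {ε : ℝ} {r : ℕ} (hr : 1 ≤ r)
    (hp : ∀ x : H →L[ℂ] H, IsSelfAdjoint x → SoPavable (BH H) A x ε r) {δ : ℝ} (hδ : 0 < δ)
    {N : ℕ} (hN : 1 ≤ N) {f : Fin N → H →L[ℂ] H}
    (hf : ∀ i, f i ∈ A ∧ IsStarProjection (f i) ∧ f i ≠ 0) (hff : ∀ i j, i ≠ j → f i * f j = 0)
    {v : Fin N → H} (hv : ∀ i, ‖v i‖ = 1) (hfv : ∀ i, f i (v i) = v i) :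
    1 / (r : ℝ) ≤ ε + 2 * (r + 1) * δ + 1 / N := by
  classical
  have hN0 : (0 : ℝ) < N := by exact_mod_cast hN
  have hr0 : (0 : ℝ) < r := by exact_mod_cast hr
  have hoff : ∀ a ∈ A, ∀ i j, i ≠ j → ⟪v i, a (v j)⟫_ℂ = 0 := fun a ha i j hij =>
    lower_offdiag h (hf i).1 (hf i).2.1 ha (hff i j hij) (hfv i) (hfv j)
  have hon : Orthonormal ℂ v := ⟨hv, fun i j hij => by
    have := hoff 1 (one_mem A) i j hij
    rwa [one_apply_eq_self] at this⟩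
  set c : ℂ := (((Real.sqrt N)⁻¹ : ℝ) : ℂ) with hc
  have hc2 : ‖c‖ ^ 2 = 1 / N := by
    rw [hc, Complex.norm_real, Real.norm_of_nonneg (inv_nonneg.2 (Real.sqrt_nonneg _)), inv_pow,
      Real.sq_sqrt hN0.le, one_div]
  set ξ : H := c • ∑ i, v i with hξ
  have hξ1 : ‖ξ‖ = 1 := by
    have h1 := lower_sum_inner 1 v (hoff 1 (one_mem A)) c
    rw [one_apply_eq_self, ← hξ, inner_self_eq_norm_sq_to_K, hc2] at h1
    have h2 : ∑ i, ⟪v i, (1 : H →L[ℂ] H) (v i)⟫_ℂ = N := by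
      have : ∀ i, ⟪v i, (1 : H →L[ℂ] H) (v i)⟫_ℂ = 1 := fun i => by
        rw [one_apply_eq_self, inner_self_eq_norm_sq_to_K, hv]
        simp
      rw [Finset.sum_congr rfl fun i _ => this i]
      simp
    rw [h2] at h1
    have h3 : ‖ξ‖ ^ 2 = 1 := by
      apply Complex.ofReal_injective
      push_cast
      refine h1.trans ?_
      push_cast
      have : (N : ℂ) ≠ 0 := by exact_mod_cast hN0.ne'
      field_simp
    have h4 : 0 ≤ ‖ξ‖ := norm_nonneg _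
    nlinarith
  obtain ⟨p, a, q, hpp, haA, -, hax, -, hq, hF, hT⟩ :=
    hp (lowerX ξ) (lower_X_sa ξ) (insert ξ (Finset.univ.image v)) δ hδ
  rw [lower_X_norm hξ1] at hax hT
  rw [mul_one] at hT
  have hTn := lower_norm_T (r := r) hpp.proj (lower_X_norm hξ1) hax
  have hb0 := lower_corner hq hξ1 hTn (hF ξ (Finset.mem_insert_self _ _)) hT
  have hbj := fun j => lower_corner hq (hv j) hTn
    (hF (v j) (Finset.mem_insert_of_mem (Finset.mem_image_of_mem _ (Finset.mem_univ _)))) hT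
  have hspl : ∀ ψ : H, (⟪ψ, (∑ i, p i * lowerX ξ * p i - a) ψ⟫_ℂ).re
      = ‖ψ‖ ^ 2 - 2 * ∑ c, ‖⟪ξ, p c ψ⟫_ℂ‖ ^ 2 - (⟪ψ, a ψ⟫_ℂ).re := fun ψ => by
    rw [sub_apply, inner_sub_right, Complex.sub_re, lower_pinch hpp]
  rw [hspl, hξ1] at hb0
  have hal : (⟪ξ, a ξ⟫_ℂ).re = 1 / N * ∑ i, (⟪v i, a (v i)⟫_ℂ).re := by
    rw [hξ, lower_sum_inner a v (hoff a haA) c, hc2, Complex.re_ofReal_mul, Complex.re_sum]
  -- Cauchy-Schwarz
  have hCS : 1 / (r : ℝ) ≤ ∑ c, ‖⟪ξ, p c ξ⟫_ℂ‖ ^ 2 := by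
    have h1 : (∑ c, ‖p c ξ‖ ^ 2) ^ 2 ≤ (r : ℝ) * ∑ c, (‖p c ξ‖ ^ 2) ^ 2 := by
      have := sq_sum_le_card_mul_sum_sq (s := (Finset.univ : Finset (Fin r)))
        (f := fun c => ‖p c ξ‖ ^ 2)
      simpa using this
    rw [lower_part_norm hpp, hξ1] at h1
    have h2 : ∑ c, ‖⟪ξ, p c ξ⟫_ℂ‖ ^ 2 = ∑ c, (‖p c ξ‖ ^ 2) ^ 2 :=
      Finset.sum_congr rfl fun c _ => by
        rw [lower_proj_norm_sq (hpp.proj c), Complex.norm_real,
          Real.norm_of_nonneg (sq_nonneg _)]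
    rw [h2, div_le_iff₀ hr0]
    linarith
  -- Bessel
  have hB : ∑ j, ∑ c, ‖⟪ξ, p c (v j)⟫_ℂ‖ ^ 2 ≤ 1 := by
    rw [Finset.sum_comm]
    calc ∑ c, ∑ j, ‖⟪ξ, p c (v j)⟫_ℂ‖ ^ 2 ≤ ∑ c, ‖p c ξ‖ ^ 2 := by
          refine Finset.sum_le_sum fun c _ => ?_
          have h1 := hon.sum_inner_products_le (p c ξ) (s := Finset.univ)
          refine le_trans (le_of_eq ?_) h1
          refine Finset.sum_congr rfl fun j _ => ?_
          rw [lower_proj_inner (hpp.proj c), norm_inner_symm]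
      _ = 1 := by
          rw [lower_part_norm hpp, hξ1]
          norm_num
  have hsum : ∑ j, (‖v j‖ ^ 2 - 2 * ∑ c, ‖⟪ξ, p c (v j)⟫_ℂ‖ ^ 2 - (⟪v j, a (v j)⟫_ℂ).re)
      ≤ ∑ _j : Fin N, (ε + 2 * ((r : ℝ) + 1) * δ) :=
    Finset.sum_le_sum fun j _ => by
      rw [← hspl]
      exact (le_abs_self _).trans (hbj j)
  rw [Finset.sum_sub_distrib, Finset.sum_sub_distrib, ← Finset.mul_sum] at hsum
  simp only [hv, one_pow, Finset.sum_const, Finset.card_univ, Fintype.card_fin, nsmul_eq_mul,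
    mul_one] at hsum
  have hal2 : ∑ i, (⟪v i, a (v i)⟫_ℂ).re = N * (⟪ξ, a ξ⟫_ℂ).re := by
    rw [hal]
    field_simp
  rw [hal2] at hsum
  have hb1 := (abs_le.1 hb0).1
  set E := ε + 2 * ((r : ℝ) + 1) * δ with hE
  set α := (⟪ξ, a ξ⟫_ℂ).re with hα
  have k1 : 2 * (1 / (r : ℝ)) - E ≤ 1 - α := by linarith
  have k2 : N * (1 - α) ≤ N * E + 2 := by linarith
  have k3 : N * (2 * (1 / (r : ℝ)) - E) ≤ N * E + 2 :=
    (mul_le_mul_of_nonneg_left k1 hN0.le).trans k2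
  have k4 : N * (1 / (r : ℝ)) ≤ N * (E + 1 / N) := by
    rw [mul_add, mul_one_div_cancel hN0.ne']
    linarith
  exact le_of_mul_le_mul_left k4 hN0

theorem lower_aux [Nontrivial H] (h : MA A) (hd : Diffuse A) {ε : ℝ} {r : ℕ} (hr : 1 ≤ r)
    (hp : ∀ x : H →L[ℂ] H, IsSelfAdjoint x → SoPavable (BH H) A x ε r) {δ : ℝ} (hδ : 0 < δ)
    {N : ℕ} (hN : 1 ≤ N) : 1 / (r : ℝ) ≤ ε + 2 * (r + 1) * δ + 1 / N := by
  obtain ⟨f, hf, hff⟩ := exists_orth hd N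
  choose v hv hfv using fun i => lower_unit (hf i).2.1 (hf i).2.2
  exact lower_core h hr hp hδ hN hf hff hv hfv

theorem lower [Nontrivial H] (h : MA A) (hd : Diffuse A) {ε : ℝ} (hε : 0 < ε) {r : ℕ}
    (hr : 1 ≤ r) (hp : ∀ x : H →L[ℂ] H, IsSelfAdjoint x → SoPavable (BH H) A x ε r) :
    1 / ε ≤ r := by
  have hr0 : (0 : ℝ) < r := by exact_mod_cast hr
  have key : 1 / (r : ℝ) ≤ ε := by
    refine le_of_forall_pos_le_add fun g hg => ?_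
    obtain ⟨N, hN⟩ := exists_nat_gt (2 / g)
    have hN0 : (0 : ℝ) < N := lt_of_le_of_lt (by positivity) hN
    have hN1 : 1 ≤ N := by exact_mod_cast hN0
    have h1 := lower_aux h hd hr hp (δ := g / (4 * (r + 1))) (by positivity) hN1
    have h2 : 2 * ((r : ℝ) + 1) * (g / (4 * (r + 1))) = g / 2 := by
      field_simp
      ring
    have h3 : 1 / (N : ℝ) ≤ g / 2 := by
      rw [div_le_div_iff₀ hN0 two_pos]
      rw [div_lt_iff₀ hg] at hN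
      linarith
    rw [h2] at h1
    linarith
  rw [div_le_iff₀ hε]
  rw [div_le_iff₀ hr0] at key
  linarith

end Vale.Agent.P078
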