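import Vale.Agent.Lib.P078S.Defs

/-!
# P078S Refine: common refinements

`refine_two`: the products `p i * q j` (index by `finProdFinEquiv`).
`part_compl`: `![e, 1 - e]`.
`exists_part_of_finset`: induction on the finite set with `refine_two` and `part_compl`.
-/

namespace Vale.Agent.P078

universe u

variable {H : Type u} [NormedAddCommGroup H] [InnerProductSpace ℂ H] [CompleteSpace H]
  {A : StarSubalgebra ℂ (H →L[ℂ] H)}

theorem refine_two (hc : ∀ a ∈ A, ∀ b ∈ A, a * b = b * a) {n m : ℕ} {p : Fin n → H →L[ℂ] H}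
    {q : Fin m → H →L[ℂ] H} (hp : IsPartition A p) (hq : IsPartition A q) :
    ∃ (k : ℕ) (s : Fin k → H →L[ℂ] H), IsPartition A s ∧
      (∀ i, ∃ S : Finset (Fin k), p i = ∑ j ∈ S, s j) ∧
      (∀ i, ∃ S : Finset (Fin k), q i = ∑ j ∈ S, s j) ∧
      (∀ j, ∃ i, s j * p i = s j) ∧ (∀ j, ∃ i, s j * q i = s j) := by
  classical
  have hcom : ∀ i j, p i * q j = q j * p i := fun i j => hc _ (hp.mem i) _ (hq.mem j)
  have hpp : ∀ i, p i * p i = p i := fun i => (hp.proj i).isIdempotentElem
  have hqq : ∀ j, q j * q j = q j := fun j => (hq.proj j).isIdempotentElem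
  let e : Fin (n * m) ≃ Fin n × Fin m := finProdFinEquiv.symm
  let s : Fin (n * m) → H →L[ℂ] H := fun l => p (e l).1 * q (e l).2
  have hs : ∀ l, s l = p (e l).1 * q (e l).2 := fun l => rfl
  refine ⟨n * m, s, ⟨?_, ?_, ?_, ?_⟩, ?_, ?_, ?_, ?_⟩
  · exact fun l => A.mul_mem (hp.mem _) (hq.mem _)
  · exact fun l => (hp.proj _).mul (hq.proj _) (hcom _ _)
  · intro l l' hll
    rw [hs, hs]
    have h1 : p (e l).1 * q (e l).2 * (p (e l').1 * q (e l').2) =
        p (e l).1 * p (e l').1 * (q (e l).2 * q (e l').2) := by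
      rw [mul_assoc, ← mul_assoc (q (e l).2), ← hcom, mul_assoc, mul_assoc]
    rw [h1]
    by_cases h2 : (e l).1 = (e l').1
    · have h3 : (e l).2 ≠ (e l').2 := by
        intro h3
        exact hll (e.injective (Prod.ext h2 h3))
      rw [hq.orth _ _ h3, mul_zero]
    · rw [hp.orth _ _ h2, zero_mul]
  · have h1 : ∑ l, s l = ∑ x : Fin n × Fin m, p x.1 * q x.2 :=
      Equiv.sum_comp e (fun x : Fin n × Fin m => p x.1 * q x.2)
    rw [h1, Fintype.sum_prod_type]
    simp only
    have h2 : ∀ i, ∑ j, p i * q j = p i := fun i => by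
      rw [← Finset.mul_sum, hq.sum, mul_one]
    simp only [h2]
    exact hp.sum
  · intro i
    refine ⟨Finset.univ.filter (fun l => (e l).1 = i), ?_⟩
    have h1 : ∑ l ∈ Finset.univ.filter (fun l => (e l).1 = i), s l =
        ∑ x ∈ Finset.univ.filter (fun x : Fin n × Fin m => x.1 = i), p x.1 * q x.2 := by
      refine Finset.sum_bij (fun l _ => e l) ?_ ?_ ?_ ?_
      · intro l hl
        simpa using hl
      · intro l _ l' _ h
        exact e.injective h
      · intro x hx
        exact ⟨e.symm x, by simpa using hx, by simp⟩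
      · intro l _
        rfl
    rw [h1]
    have h2 : Finset.univ.filter (fun x : Fin n × Fin m => x.1 = i) =
        {i} ×ˢ (Finset.univ : Finset (Fin m)) := by
      ext x
      rw [Finset.mem_product, Finset.mem_filter, Finset.mem_singleton]
      simp
    rw [h2, Finset.sum_product, Finset.sum_singleton]
    simp only
    rw [← Finset.mul_sum, hq.sum, mul_one]
  · intro i
    refine ⟨Finset.univ.filter (fun l => (e l).2 = i), ?_⟩
    have h1 : ∑ l ∈ Finset.univ.filter (fun l => (e l).2 = i), s l =
        ∑ x ∈ Finset.univ.filter (fun x : Fin n × Fin m => x.2 = i), p x.1 * q x.2 := by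
      refine Finset.sum_bij (fun l _ => e l) ?_ ?_ ?_ ?_
      · intro l hl
        simpa using hl
      · intro l _ l' _ h
        exact e.injective h
      · intro x hx
        exact ⟨e.symm x, by simpa using hx, by simp⟩
      · intro l _
        rfl
    rw [h1]
    have h2 : Finset.univ.filter (fun x : Fin n × Fin m => x.2 = i) =
        (Finset.univ : Finset (Fin n)) ×ˢ {i} := by
      ext x
      rw [Finset.mem_product, Finset.mem_filter, Finset.mem_singleton]
      simp
    rw [h2, Finset.sum_product]
    simp only [Finset.sum_singleton]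
    rw [← Finset.sum_mul, hp.sum, one_mul]
  · intro l
    refine ⟨(e l).1, ?_⟩
    rw [hs, mul_assoc, ← hcom, ← mul_assoc, hpp]
  · intro l
    refine ⟨(e l).2, ?_⟩
    rw [hs, mul_assoc, hqq]

theorem part_compl {e : H →L[ℂ] H} (he : e ∈ A) (hp : IsStarProjection e) :
    IsPartition A ![e, 1 - e] := by
  have h1 : e * e = e := hp.isIdempotentElem
  refine ⟨?_, ?_, ?_, ?_⟩
  · intro i
    fin_cases i
    · exact he
    · exact A.sub_mem A.one_mem he
  · intro i
    fin_cases i
    · exact hp
    · exact hp.one_sub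
  · intro i j hij
    fin_cases i <;> fin_cases j
    · exact absurd rfl hij
    · simp [mul_sub, h1]
    · simp [sub_mul, h1]
    · exact absurd rfl hij
  · rw [Fin.sum_univ_two]
    simp

/-- an element which is absorbed or killed by every piece of a partition is a sum of pieces -/
private theorem Refine_sum {k : ℕ} {s : Fin k → H →L[ℂ] H} (hs : IsPartition A s)
    {e : H →L[ℂ] H} (h : ∀ j, s j * e = s j ∨ s j * e = 0) :
    ∃ S : Finset (Fin k), e = ∑ j ∈ S, s j := by
  classical
  refine ⟨Finset.univ.filter (fun j => s j * e = s j), ?_⟩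
  have h1 : e = ∑ j, s j * e := by rw [← Finset.sum_mul, hs.sum, one_mul]
  have h2 : ∑ j, s j * e = ∑ j, if s j * e = s j then s j else 0 := by
    refine Finset.sum_congr rfl fun j _ => ?_
    split_ifs with h3
    · exact h3
    · exact (h j).resolve_left h3
  rw [Finset.sum_filter, ← h2]
  exact h1

theorem exists_part_of_finset (hc : ∀ a ∈ A, ∀ b ∈ A, a * b = b * a)
    (E : Finset (H →L[ℂ] H)) (hE : ∀ e ∈ E, e ∈ A ∧ IsStarProjection e) :
    ∃ (k : ℕ) (s : Fin k → H →L[ℂ] H), IsPartition A s ∧
      ∀ e ∈ E, ∃ S : Finset (Fin k), e = ∑ j ∈ S, s j := by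
  classical
  induction E using Finset.induction_on with
  | empty =>
    refine ⟨1, fun _ => 1, ⟨fun _ => A.one_mem, fun _ => IsStarProjection.one _, ?_, ?_⟩, ?_⟩
    · intro i j hij
      exact absurd (Subsingleton.elim i j) hij
    · simp
    · intro e he
      exact absurd he (Finset.notMem_empty e)
  | insert e E _ ih =>
    obtain ⟨k, s, hs, hsE⟩ := ih fun a ha => hE a (Finset.mem_insert_of_mem ha)
    obtain ⟨he, hep⟩ := hE e (Finset.mem_insert_self e E)
    obtain ⟨l, t, ht, -, ht2, ht3, -⟩ := refine_two hc hs (part_compl he hep)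
    refine ⟨l, t, ht, fun a ha => ?_⟩
    rcases Finset.mem_insert.1 ha with rfl | ha
    · exact ht2 0
    · obtain ⟨S, hS⟩ := hsE a ha
      refine Refine_sum ht fun j => ?_
      obtain ⟨i, hi⟩ := ht3 j
      have h1 : s i * a = s i ∨ s i * a = 0 := by
        rw [hS, Finset.mul_sum]
        by_cases hiS : i ∈ S
        · left
          rw [Finset.sum_eq_single_of_mem i hiS fun b _ hb => hs.orth i b (Ne.symm hb)]
          exact (hs.proj i).isIdempotentElem
        · right
          exact Finset.sum_eq_zero fun b hb => hs.orth i b (by rintro rfl; exact hiS hb)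
      rw [← hi, mul_assoc]
      rcases h1 with h1 | h1
      · left
        rw [h1]
      · right
        rw [h1, mul_zero]

end Vale.Agent.P078
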