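import Vale.Agent.Lib.P078S.Spectral
import Vale.Agent.Lib.P078S.Refine

/-!
# P078S Cyclic: a cyclic vector for finitely many vectors

Let `K ζ` be the closure of the span of `{e ζ : e projection of A}`.  It is `A`-invariant: for
self-adjoint `a ∈ A` and a projection `e`, `a e ζ` is approximated by `∑ λ_i p_i e ζ`
(`exists_step_approx`), and `p_i e` is a projection of `A`; general `a` = real part + i imaginary
part.  So the projection `P` onto `K ζ` is in `A` (`proj_mem`).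

`exists_cyclic`: induction on `F` (`Finset.induction_on`).  Given `ζ` for `F` and a new vector `ξ`
put `ζ' = ζ + (1 - P) ξ`.  Then `P ζ' = ζ` (`ζ = 1 ζ ∈ K ζ`), so `e ζ = (e P) ζ'` and
`K ζ ⊆ K ζ'`; `(1 - P) ξ = (1 - P) ζ' ∈ K ζ'`; `P ξ ∈ K ζ`.  So `ξ ∈ K ζ'`.

`exists_part_cyclic`: approximate each `ξ ∈ F` by an element of the span (`mem_closure`), which
involves finitely many projections; `exists_part_of_finset`.
-/

namespace Vale.Agent.P078

universe u

variable {H : Type u} [NormedAddCommGroup H] [InnerProductSpace ℂ H] [CompleteSpace H]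
  {A : StarSubalgebra ℂ (H →L[ℂ] H)}

/-- the closed cyclic subspace -/
noncomputable def Cyclic_K (A : StarSubalgebra ℂ (H →L[ℂ] H)) (ζ : H) : Submodule ℂ H :=
  (Submodule.span ℂ {v : H | ∃ e ∈ A, IsStarProjection e ∧ v = e ζ}).topologicalClosure

theorem Cyclic_mem {ζ : H} {e : H →L[ℂ] H} (he : e ∈ A) (hp : IsStarProjection e) :
    e ζ ∈ Cyclic_K A ζ :=
  Submodule.le_topologicalClosure _ (Submodule.subset_span ⟨e, he, hp, rfl⟩)

theorem Cyclic_self (ζ : H) : ζ ∈ Cyclic_K A ζ :=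
  Cyclic_mem (A := A) (e := 1) (one_mem A) (IsStarProjection.one _)

theorem Cyclic_closed (ζ : H) : IsClosed (Cyclic_K A ζ : Set H) :=
  Submodule.isClosed_topologicalClosure _

theorem Cyclic_le {ζ : H} {L : Submodule ℂ H} (hL : IsClosed (L : Set H))
    (h : ∀ e ∈ A, IsStarProjection e → e ζ ∈ L) : Cyclic_K A ζ ≤ L := by
  refine Submodule.topologicalClosure_minimal _ (Submodule.span_le.2 ?_) hL
  rintro v ⟨e, he, hp, rfl⟩
  exact h e he hp

theorem Cyclic_proj_mul (h : MA A) {e f : H →L[ℂ] H} (he : e ∈ A) (hf : f ∈ A)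
    (hpe : IsStarProjection e) (hpf : IsStarProjection f) :
    e * f ∈ A ∧ IsStarProjection (e * f) := by
  refine ⟨mul_mem he hf, ?_, ?_⟩
  · change e * f * (e * f) = e * f
    have h1 : e * f * (e * f) = e * (f * e) * f := by simp only [mul_assoc]
    rw [h1, h.comm f hf e he, ← mul_assoc, hpe.isIdempotentElem.eq, mul_assoc,
      hpf.isIdempotentElem.eq]
  · rw [isSelfAdjoint_iff, star_mul, hpe.isSelfAdjoint.star_eq, hpf.isSelfAdjoint.star_eq,
      h.comm f hf e he]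

theorem Cyclic_inv_sa (h : MA A) (ζ : H) {a : H →L[ℂ] H} (ha : a ∈ A) (hsa : IsSelfAdjoint a)
    {e : H →L[ℂ] H} (he : e ∈ A) (hp : IsStarProjection e) : a (e ζ) ∈ Cyclic_K A ζ := by
  have hcl := (Cyclic_closed (A := A) ζ).closure_eq
  rw [← SetLike.mem_coe, ← hcl, Metric.mem_closure_iff]
  intro ε hε
  obtain ⟨n, p, lam, hpart, hap⟩ := exists_step_approx h ha hsa
    (η := ε / (2 * (‖e ζ‖ + 1))) (by positivity)
  refine ⟨(∑ i, (lam i : ℂ) • p i) (e ζ), ?_, ?_⟩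
  · rw [SetLike.mem_coe, ContinuousLinearMap.sum_apply]
    refine Submodule.sum_mem _ fun i _ => ?_
    change (lam i : ℂ) • (p i (e ζ)) ∈ _
    refine Submodule.smul_mem _ _ ?_
    obtain ⟨h1, h2⟩ := Cyclic_proj_mul h (hpart.mem i) he (hpart.proj i) hp
    exact Cyclic_mem h1 h2
  · rw [dist_eq_norm]
    have h1 : a (e ζ) - (∑ i, (lam i : ℂ) • p i) (e ζ) = (a - ∑ i, (lam i : ℂ) • p i) (e ζ) := rfl
    rw [h1]
    refine (ContinuousLinearMap.le_opNorm _ _).trans_lt ?_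
    have h2 : ‖a - ∑ i, (lam i : ℂ) • p i‖ * ‖e ζ‖ ≤
        ε / (2 * (‖e ζ‖ + 1)) * ‖e ζ‖ := mul_le_mul_of_nonneg_right hap (norm_nonneg _)
    have h3 : ε / (2 * (‖e ζ‖ + 1)) * ‖e ζ‖ ≤ ε / 2 := by
      rw [div_mul_eq_mul_div, div_le_div_iff₀ (by positivity) (by norm_num)]
      nlinarith [norm_nonneg (e ζ)]
    linarith

theorem Cyclic_inv (h : MA A) (ζ : H) : ∀ a ∈ A, ∀ v ∈ Cyclic_K A ζ, a v ∈ Cyclic_K A ζ := by
  intro a ha v hv
  have h1 : Cyclic_K A ζ ≤ (Cyclic_K A ζ).comap (a : H →ₗ[ℂ] H) := by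
    refine Cyclic_le ?_ fun e he hp => ?_
    · exact (Cyclic_closed (A := A) ζ).preimage a.continuous
    · change a (e ζ) ∈ Cyclic_K A ζ
      obtain ⟨b, hb⟩ : ∃ b : H →L[ℂ] H, b = a + star a := ⟨_, rfl⟩
      obtain ⟨c, hc⟩ : ∃ c : H →L[ℂ] H, c = Complex.I • (star a - a) := ⟨_, rfl⟩
      have hbA : b ∈ A := by
        rw [hb]
        exact add_mem ha (star_mem ha)
      have hcA : c ∈ A := by
        rw [hc]
        exact A.smul_mem (sub_mem (star_mem ha) ha) _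
      have hbs : IsSelfAdjoint b := by
        rw [hb, isSelfAdjoint_iff, star_add, star_star, add_comm]
      have hcs : IsSelfAdjoint c := by
        rw [hc, isSelfAdjoint_iff, star_smul, star_sub, star_star, Complex.star_def,
          Complex.conj_I, neg_smul, ← smul_neg, neg_sub]
      have hbc : a = (1 / 2 : ℂ) • b + (Complex.I / 2) • c := by
        rw [hb, hc, smul_smul]
        have e1 : Complex.I / 2 * Complex.I = -(1 / 2) := by
          rw [div_mul_eq_mul_div, Complex.I_mul_I]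
          norm_num
        rw [e1]
        module
      have h2 := Cyclic_inv_sa h ζ hbA hbs he hp
      have h3 := Cyclic_inv_sa h ζ hcA hcs he hp
      have h4 : a (e ζ) = (1 / 2 : ℂ) • b (e ζ) + (Complex.I / 2) • c (e ζ) := by
        conv_lhs => rw [hbc]
        rfl
      rw [h4]
      exact add_mem (Submodule.smul_mem _ _ h2) (Submodule.smul_mem _ _ h3)
  exact h1 hv

theorem Cyclic_step (h : MA A) (ζ ξ : H) : ∃ ζ' : H, Cyclic_K A ζ ≤ Cyclic_K A ζ' ∧
    ξ ∈ Cyclic_K A ζ' := by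
  have : CompleteSpace (Cyclic_K A ζ) := (Cyclic_closed (A := A) ζ).completeSpace_coe
  obtain ⟨P, hP⟩ : ∃ P : H →L[ℂ] H, P = (Cyclic_K A ζ).starProjection := ⟨_, rfl⟩
  have hPA : P ∈ A := by
    rw [hP]
    exact proj_mem h (Cyclic_K A ζ) (Cyclic_inv h ζ)
  have hPp : IsStarProjection P := by
    rw [hP]
    exact isStarProjection_starProjection
  have hPζ : P ζ = ζ := by
    rw [hP]
    exact Submodule.starProjection_eq_self_iff.2 (Cyclic_self ζ)
  have hPξ : P ξ ∈ Cyclic_K A ζ := by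
    rw [hP]
    exact Submodule.starProjection_apply_mem _ ξ
  have hPPξ : P (P ξ) = P ξ := by
    have := congrArg (fun T : H →L[ℂ] H => T ξ) hPp.isIdempotentElem.eq
    exact this
  have hPζ' : P (ζ + (ξ - P ξ)) = ζ := by
    rw [map_add, map_sub, hPPξ, hPζ, sub_self, add_zero]
  have hle : Cyclic_K A ζ ≤ Cyclic_K A (ζ + (ξ - P ξ)) := by
    refine Cyclic_le (Cyclic_closed _) fun e he hp => ?_
    obtain ⟨h1, h2⟩ := Cyclic_proj_mul h he hPA hp hPp
    have h3 := Cyclic_mem (A := A) (ζ := ζ + (ξ - P ξ)) h1 h2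
    have h4 : (e * P) (ζ + (ξ - P ξ)) = e ζ := by
      change e (P (ζ + (ξ - P ξ))) = e ζ
      rw [hPζ']
    rwa [h4] at h3
  refine ⟨ζ + (ξ - P ξ), hle, ?_⟩
  have h5 : (1 - P) (ζ + (ξ - P ξ)) = ξ - P ξ := by
    change (ζ + (ξ - P ξ)) - P (ζ + (ξ - P ξ)) = _
    rw [hPζ', add_sub_cancel_left]
  have h6 := Cyclic_mem (A := A) (ζ := ζ + (ξ - P ξ)) (sub_mem (one_mem A) hPA)
    (IsStarProjection.one_sub hPp)
  rw [h5] at h6
  have h7 : ξ = (ξ - P ξ) + P ξ := by abel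
  rw [h7]
  have h8 := add_mem h6 (hle hPξ)
  rwa [← h7] at h8 ⊢

theorem exists_cyclic (h : MA A) (F : Finset H) :
    ∃ ζ : H, ∀ ξ ∈ F, ξ ∈ (Submodule.span ℂ
      {v : H | ∃ e ∈ A, IsStarProjection e ∧ v = e ζ}).topologicalClosure := by
  classical
  induction F using Finset.induction_on with
  | empty => exact ⟨0, fun ξ hξ => absurd hξ (Finset.notMem_empty ξ)⟩
  | insert ξ F _ ih =>
    obtain ⟨ζ, hζ⟩ := ih
    obtain ⟨ζ', hle, hξ⟩ := Cyclic_step h ζ ξ
    refine ⟨ζ', fun η hη => ?_⟩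
    rcases Finset.mem_insert.1 hη with rfl | hη
    · exact hξ
    · exact hle (hζ η hη)

theorem Cyclic_fin {ζ v : H} (hv : v ∈ Submodule.span ℂ
      {v : H | ∃ e ∈ A, IsStarProjection e ∧ v = e ζ}) :
    ∃ E : Finset (H →L[ℂ] H), (∀ e ∈ E, e ∈ A ∧ IsStarProjection e) ∧
      v ∈ Submodule.span ℂ ((fun e : H →L[ℂ] H => e ζ) '' (E : Set (H →L[ℂ] H))) := by
  classical
  induction hv using Submodule.span_induction with
  | mem x hx =>
    obtain ⟨e, he, hp, rfl⟩ := hx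
    refine ⟨{e}, fun f hf => ?_, Submodule.subset_span ⟨e, ?_, rfl⟩⟩
    · rw [Finset.mem_singleton.1 hf]
      exact ⟨he, hp⟩
    · exact Finset.mem_coe.2 (Finset.mem_singleton_self e)
  | zero => exact ⟨∅, fun f hf => absurd hf (Finset.notMem_empty f), zero_mem _⟩
  | add x y _ _ hx hy =>
    obtain ⟨E, hE, h1⟩ := hx
    obtain ⟨E', hE', h2⟩ := hy
    refine ⟨E ∪ E', fun f hf => ?_, add_mem ?_ ?_⟩
    · rcases Finset.mem_union.1 hf with hf | hf
      · exact hE f hf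
      · exact hE' f hf
    · exact Submodule.span_mono (Set.image_mono (by
        rw [Finset.coe_union]
        exact Set.subset_union_left)) h1
    · exact Submodule.span_mono (Set.image_mono (by
        rw [Finset.coe_union]
        exact Set.subset_union_right)) h2
  | smul c x _ hx =>
    obtain ⟨E, hE, h1⟩ := hx
    exact ⟨E, hE, Submodule.smul_mem _ _ h1⟩

theorem exists_part_cyclic (h : MA A) (F : Finset H) {δ : ℝ} (hδ : 0 < δ) :
    ∃ (ζ : H) (n : ℕ) (p : Fin n → H →L[ℂ] H), IsPartition A p ∧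
      ∀ ξ ∈ F, ∃ v ∈ Submodule.span ℂ (Set.range fun i => p i ζ), ‖ξ - v‖ < δ := by
  classical
  obtain ⟨ζ, hζ⟩ := exists_cyclic h F
  have h1 : ∀ ξ : H, ∃ E : Finset (H →L[ℂ] H), (∀ e ∈ E, e ∈ A ∧ IsStarProjection e) ∧
      (ξ ∈ F → ∃ v ∈ Submodule.span ℂ ((fun e : H →L[ℂ] H => e ζ) '' (E : Set (H →L[ℂ] H))),
        ‖ξ - v‖ < δ) := by
    intro ξ
    by_cases hξ : ξ ∈ F
    · have h2 := hζ ξ hξ
      rw [← SetLike.mem_coe, Submodule.topologicalClosure_coe, Metric.mem_closure_iff] at h2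
      obtain ⟨v, hv, hd⟩ := h2 δ hδ
      obtain ⟨E, hE, hvE⟩ := Cyclic_fin hv
      rw [dist_eq_norm] at hd
      exact ⟨E, hE, fun _ => ⟨v, hvE, hd⟩⟩
    · exact ⟨∅, fun f hf => absurd hf (Finset.notMem_empty f), fun h' => absurd h' hξ⟩
  choose E hE hv using h1
  obtain ⟨k, s, hs, hsum⟩ := exists_part_of_finset h.comm (F.biUnion E) (fun e he => by
    obtain ⟨ξ, _, he'⟩ := Finset.mem_biUnion.1 he
    exact hE ξ e he')
  refine ⟨ζ, k, s, hs, fun ξ hξ => ?_⟩
  obtain ⟨v, hvE, hd⟩ := hv ξ hξ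
  refine ⟨v, ?_, hd⟩
  refine (Submodule.span_le.2 ?_) hvE
  rintro _ ⟨e, he, rfl⟩
  obtain ⟨S, hS⟩ := hsum e (Finset.mem_biUnion.2 ⟨ξ, hξ, Finset.mem_coe.1 he⟩)
  change e ζ ∈ _
  rw [hS, ContinuousLinearMap.sum_apply]
  exact Submodule.sum_mem _ fun j _ => Submodule.subset_span ⟨j, rfl⟩

end Vale.Agent.P078
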