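import Mathlib

/-!
# P078S: exact so-paving numbers of diffuse MASAs of `B(H)` -- definitions

`IsMASA M A`, `IsPartition A p`, `SoPavable M A x ε r`, `soNumber M A ε` are literal from the
problem; `BH H` is `B(H)` as a von Neumann algebra; `Diffuse A`: no minimal projection.

Internal: `MA A` (commutative and containing its commutant).
-/

namespace Vale.Agent.P078

universe u

variable {H : Type u} [NormedAddCommGroup H] [InnerProductSpace ℂ H] [CompleteSpace H]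

/-- `A` is a maximal abelian self-adjoint subalgebra of the von Neumann algebra `M` -/
structure IsMASA (M : VonNeumannAlgebra H) (A : StarSubalgebra ℂ (H →L[ℂ] H)) : Prop where
  le : ∀ a ∈ A, a ∈ M
  comm : ∀ a ∈ A, ∀ b ∈ A, a * b = b * a
  maximal : ∀ B : StarSubalgebra ℂ (H →L[ℂ] H), (∀ b ∈ B, b ∈ M) →
    (∀ a ∈ B, ∀ b ∈ B, a * b = b * a) → A ≤ B → B ≤ A

/-- a partition in `A` with `r` pieces: mutually orthogonal projections of `A` with sum `1`
(zeros allowed) -/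
structure IsPartition (A : StarSubalgebra ℂ (H →L[ℂ] H)) {r : ℕ} (p : Fin r → H →L[ℂ] H) :
    Prop where
  mem : ∀ i, p i ∈ A
  proj : ∀ i, IsStarProjection (p i)
  orth : ∀ i j, i ≠ j → p i * p j = 0
  sum : ∑ i, p i = 1

/-- `x` is `(ε, r)` so-pavable over `A` -/
def SoPavable (M : VonNeumannAlgebra H) (A : StarSubalgebra ℂ (H →L[ℂ] H)) (x : H →L[ℂ] H)
    (ε : ℝ) (r : ℕ) : Prop :=
  ∀ (F : Finset H) (δ : ℝ), 0 < δ → ∃ (p : Fin r → H →L[ℂ] H) (a q : H →L[ℂ] H),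
    IsPartition A p ∧ a ∈ A ∧ IsSelfAdjoint a ∧ ‖a‖ ≤ ‖x‖ ∧ q ∈ M ∧ IsStarProjection q ∧
    (∀ ξ ∈ F, ‖(1 - q) ξ‖ < δ) ∧ ‖q * (∑ i, p i * x * p i - a) * q‖ ≤ ε * ‖x‖

/-- the so-paving number `n_{A ⊆ M}(ε)` -/
noncomputable def soNumber (M : VonNeumannAlgebra H) (A : StarSubalgebra ℂ (H →L[ℂ] H))
    (ε : ℝ) : ℕ∞ :=
  ⨅ (r : ℕ) (_ : 1 ≤ r ∧ ∀ x ∈ M, IsSelfAdjoint x → SoPavable M A x ε r), (r : ℕ∞)

/-- the algebra of all bounded operators, as a von Neumann algebra -/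
noncomputable def BH (H : Type u) [NormedAddCommGroup H] [InnerProductSpace ℂ H] [CompleteSpace H] :
    VonNeumannAlgebra H where
  toStarSubalgebra := ⊤
  centralizer_centralizer' := by
    apply Set.Subset.antisymm (fun _ _ => trivial)
    exact Set.subset_centralizer_centralizer

/-- `A` has no minimal projection -/
def Diffuse (A : StarSubalgebra ℂ (H →L[ℂ] H)) : Prop :=
  ∀ p ∈ A, IsStarProjection p → p ≠ 0 →
    ∃ q ∈ A, IsStarProjection q ∧ q ≠ 0 ∧ q ≠ p ∧ q * p = q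

theorem mem_BH (x : H →L[ℂ] H) : x ∈ BH H := trivial

/-- commutative, and contains its commutant -/
structure MA (A : StarSubalgebra ℂ (H →L[ℂ] H)) : Prop where
  comm : ∀ a ∈ A, ∀ b ∈ A, a * b = b * a
  cent : ∀ x : H →L[ℂ] H, (∀ a ∈ A, a * x = x * a) → x ∈ A

end Vale.Agent.P078
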