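import Vale.Agent.Lib.P078S.Upper

/-!
# P078S Exact: `(ε, r)` so-pavability for `r ≥ 1/ε`
-/

namespace Vale.Agent.P078

open Finset
open scoped InnerProductSpace

universe u

variable {H : Type u} [NormedAddCommGroup H] [InnerProductSpace ℂ H] [CompleteSpace H]
  {A : StarSubalgebra ℂ (H →L[ℂ] H)}

/-- the algebraic cyclic space -/
noncomputable def stepSpan (A : StarSubalgebra ℂ (H →L[ℂ] H)) (ζ : H) : Submodule ℂ H :=
  Submodule.span ℂ {v : H | ∃ e ∈ A, IsStarProjection e ∧ v = e ζ}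

theorem stepSpan_mem {ζ : H} {e : H →L[ℂ] H} (he : e ∈ A) (hp : IsStarProjection e) :
    e ζ ∈ stepSpan A ζ :=
  Submodule.subset_span ⟨e, he, hp, rfl⟩

/-- the core estimate on a step subspace -/
theorem exact_core (h : MA A) (hd : Diffuse A) {x : H →L[ℂ] H} (hx : IsSelfAdjoint x) (ζ : H)
    {n : ℕ} {e0 : Fin n → H →L[ℂ] H} (he0 : IsPartition A e0) {κ : ℝ} (hκ0 : 0 < κ) {r : ℕ}
    (hr1 : 1 ≤ r) :
    ∃ (p : Fin r → H →L[ℂ] H) (B : H →L[ℂ] H), IsPartition A p ∧ B ∈ A ∧ IsSelfAdjoint B ∧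
      ‖B‖ ≤ ‖x‖ ∧ ∀ v ∈ Submodule.span ℂ (Set.range fun i => e0 i ζ),
        ∀ w ∈ Submodule.span ℂ (Set.range fun i => e0 i ζ),
        ‖⟪w, (∑ i, p i * x * p i - (1 - 1 / (r : ℂ)) • B - (1 / (r : ℂ)) • x) v⟫_ℂ‖ ≤
          κ * (‖w‖ * ‖v‖) := by
  set V : Submodule ℂ H := Submodule.span ℂ (Set.range fun i => e0 i ζ) with hV
  have : FiniteDimensional ℂ V := FiniteDimensional.span_of_finite ℂ (Set.finite_range _)
  let b := stdOrthonormalBasis ℂ V
  set d := Module.finrank ℂ V with hdd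
  have hbd : ∀ k, ∃ C : ℝ, 0 ≤ C ∧ ∀ g : H →L[ℂ] H, (∀ l, g * e0 l = e0 l * g) →
      ‖g (b k : H)‖ ≤ C * ‖g ζ‖ := fun k => Upper_bd he0 ζ (b k) (b k).2
  choose C hC0 hC using hbd
  set Cs : ℝ := ∑ k, C k with hCs
  have hCs0 : 0 ≤ Cs := Finset.sum_nonneg fun k _ => hC0 k
  have hCk : ∀ k, C k ≤ Cs := fun k =>
    Finset.single_le_sum (f := C) (fun i _ => hC0 i) (Finset.mem_univ k)
  set K : ℝ := 2 * (d : ℝ) * d * ‖x‖ ^ 2 * Cs ^ 2 with hK
  have hK0 : 0 ≤ K := by positivity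
  set η₁ : ℝ := (κ / ((d : ℝ) ^ 2 + 1)) ^ 2 / (K + 1) with hη₁
  have hη₁0 : 0 < η₁ := by positivity
  obtain ⟨m, e1, he1, hfine⟩ := exists_fine h hd ζ hη₁0
  obtain ⟨k, s, hs, -, -, hsp, hsq⟩ := refine_two h.comm he0 he1
  have hsζ : ∀ j, ‖s j ζ‖ ^ 2 ≤ η₁ := by
    intro j
    obtain ⟨i, hi⟩ := hsq j
    have h2 : s j ζ = s j (e1 i ζ) := (congrArg (fun T : H →L[ℂ] H => T ζ) hi).symm
    have h3 : ‖s j ζ‖ ≤ ‖e1 i ζ‖ := by
      rw [h2]
      exact Upper_proj_norm (hs.proj j) _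
    exact (pow_le_pow_left₀ (norm_nonneg _) h3 2).trans (hfine i)
  have hsb : ∀ (l : Fin d) (j : Fin k), ‖s j (b l : H)‖ ^ 2 ≤ Cs ^ 2 * η₁ := by
    intro l j
    have h2 : ‖s j (b l : H)‖ ≤ Cs * ‖s j ζ‖ :=
      (hC l (s j) fun i => h.comm _ (hs.mem j) _ (he0.mem i)).trans
        (mul_le_mul_of_nonneg_right (hCk l) (norm_nonneg _))
    calc ‖s j (b l : H)‖ ^ 2 ≤ (Cs * ‖s j ζ‖) ^ 2 := pow_le_pow_left₀ (norm_nonneg _) h2 2
      _ = Cs ^ 2 * ‖s j ζ‖ ^ 2 := mul_pow _ _ _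
      _ ≤ Cs ^ 2 * η₁ := mul_le_mul_of_nonneg_left (hsζ j) (by positivity)
  obtain ⟨χ, hχ⟩ := exists_good_color hr1 hs x (fun l : Fin d => (b l : H)) hsb
  have hbn : ∀ l, ‖(b l : H)‖ = 1 := fun l => b.orthonormal.1 l
  have hβ0 : 0 ≤ κ / ((d : ℝ) ^ 2 + 1) := by positivity
  have hβ : ∀ l l', ‖⟪(b l' : H), defect s χ x (b l)⟫_ℂ‖ ≤ κ / ((d : ℝ) ^ 2 + 1) := by
    intro l l'
    have h2 := hχ l l'
    simp only [hbn, one_pow, Finset.sum_const, Finset.card_univ, Fintype.card_fin,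
      nsmul_eq_mul, mul_one] at h2
    have h3 : 2 * (d : ℝ) * d * ‖x‖ ^ 2 * (Cs ^ 2 * η₁) ≤ (κ / ((d : ℝ) ^ 2 + 1)) ^ 2 := by
      have e1 : 2 * (d : ℝ) * d * ‖x‖ ^ 2 * (Cs ^ 2 * η₁) = K * η₁ := by
        rw [hK]
        ring
      rw [e1, hη₁, mul_div_assoc', div_le_iff₀ (by positivity)]
      nlinarith [sq_nonneg (κ / ((d : ℝ) ^ 2 + 1))]
    exact le_of_sq_le_sq (h2.trans h3) hβ0
  have hD : ‖V.starProjection * defect s χ x * V.starProjection‖ ≤ κ := by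
    refine (Upper_compress b (defect s χ x) hβ0 hβ).trans ?_
    rw [Fintype.card_fin, mul_div_assoc', div_le_iff₀ (by positivity)]
    nlinarith [sq_nonneg (d : ℝ)]
  set α : Fin k → ℝ := fun j => (⟪s j ζ, x (s j ζ)⟫_ℂ).re / ‖s j ζ‖ ^ 2 with hα
  have hαX : ∀ j, |α j| ≤ ‖x‖ := by
    intro j
    simp only [hα]
    rw [abs_div, abs_of_nonneg (sq_nonneg ‖s j ζ‖)]
    apply div_le_of_le_mul₀ (sq_nonneg _) (norm_nonneg _)
    calc |(⟪s j ζ, x (s j ζ)⟫_ℂ).re| ≤ ‖⟪s j ζ, x (s j ζ)⟫_ℂ‖ := Complex.abs_re_le_norm _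
      _ ≤ ‖s j ζ‖ * ‖x (s j ζ)‖ := norm_inner_le_norm _ _
      _ ≤ ‖s j ζ‖ * (‖x‖ * ‖s j ζ‖) :=
          mul_le_mul_of_nonneg_left (x.le_opNorm _) (norm_nonneg _)
      _ = ‖x‖ * ‖s j ζ‖ ^ 2 := by ring
  set B : H →L[ℂ] H := ∑ j, (α j : ℂ) • s j with hB
  have hBn : ‖B‖ ≤ ‖x‖ := Upper_diag_norm hs α (norm_nonneg _) hαX
  have hBA : B ∈ A := A.sum_mem fun j _ => A.smul_mem (hs.mem j) _
  have hBs : IsSelfAdjoint B := by
    refine isSelfAdjoint_sum _ fun j _ => ?_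
    rw [Complex.coe_smul]
    exact IsSelfAdjoint.smul (IsSelfAdjoint.all (α j)) (hs.proj j).isSelfAdjoint
  refine ⟨colP s χ, B, colP_part hs χ, hBA, hBs, hBn, fun v hv w hw => ?_⟩
  have e1 : ∑ i, colP s χ i * x * colP s χ i - (1 - 1 / (r : ℂ)) • B - (1 / (r : ℂ)) • x =
      defect s χ x + (1 - 1 / (r : ℂ)) • (∑ j, s j * x * s j - B) := by
    unfold defect
    rw [smul_sub]
    abel
  have e2 : ⟪w, (∑ j, s j * x * s j - B) v⟫_ℂ = 0 := Upper_diag he0 hs hsp hx ζ v w hv hw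
  rw [e1, add_apply, smul_apply, inner_add_right, inner_smul_right, e2, mul_zero, add_zero]
  have hqv : V.starProjection v = v := Submodule.starProjection_eq_self_iff.2 hv
  have hqw : V.starProjection w = w := Submodule.starProjection_eq_self_iff.2 hw
  have e3 : ⟪w, defect s χ x v⟫_ℂ =
      ⟪w, (V.starProjection * defect s χ x * V.starProjection) v⟫_ℂ := by
    change _ = ⟪w, V.starProjection (defect s χ x (V.starProjection v))⟫_ℂ
    rw [← Upper_sa (isStarProjection_starProjection (U := V)).isSelfAdjoint, hqv, hqw]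
  rw [e3]
  calc ‖⟪w, (V.starProjection * defect s χ x * V.starProjection) v⟫_ℂ‖
      ≤ ‖w‖ * ‖(V.starProjection * defect s χ x * V.starProjection) v‖ := norm_inner_le_norm _ _
    _ ≤ ‖w‖ * (κ * ‖v‖) := mul_le_mul_of_nonneg_left
        ((ContinuousLinearMap.le_opNorm _ _).trans
          (mul_le_mul_of_nonneg_right hD (norm_nonneg _))) (norm_nonneg _)
    _ = κ * (‖w‖ * ‖v‖) := by ring

/-- approximation by vectors which are independent for `T` -/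
theorem exact_indep (T : H →ₗ[ℂ] H) (S : Submodule ℂ H)
    (hS : ∀ W : Submodule ℂ H, FiniteDimensional ℂ W → ∃ s ∈ S, T s ∉ W) (F : Finset H) {δ : ℝ}
    (hF : ∀ ξ ∈ F, ∃ v ∈ S, ‖ξ - v‖ < δ) :
    ∃ V : Submodule ℂ H, FiniteDimensional ℂ V ∧ V ≤ S ∧ (∀ v ∈ V, T v = 0 → v = 0) ∧
      ∀ ξ ∈ F, ∃ v ∈ V, ‖ξ - v‖ < δ := by
  classical
  induction F using Finset.induction_on with
  | empty =>
    refine ⟨⊥, inferInstance, bot_le, fun v hv _ => (Submodule.mem_bot ℂ).1 hv, ?_⟩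
    intro ξ hξ
    exact absurd hξ (Finset.notMem_empty ξ)
  | insert ξ F _ ih =>
    obtain ⟨V, hVf, hVS, hVT, hVF⟩ := ih fun η hη => hF η (Finset.mem_insert_of_mem hη)
    obtain ⟨v, hvS, hv⟩ := hF ξ (Finset.mem_insert_self ξ F)
    have hWf : FiniteDimensional ℂ (V.map T) := inferInstance
    obtain ⟨w, hwS, hwξ, hwT⟩ : ∃ w ∈ S, ‖ξ - w‖ < δ ∧ T w ∉ V.map T := by
      by_cases h1 : T v ∈ V.map T
      · obtain ⟨s, hsS, hs⟩ := hS _ hWf
        set t : ℝ := (δ - ‖ξ - v‖) / (2 * (‖s‖ + 1)) with ht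
        have hs0 : 0 < ‖s‖ + 1 := by positivity
        have ht0 : 0 < t := div_pos (by linarith) (by positivity)
        refine ⟨v + (t : ℂ) • s, add_mem hvS (S.smul_mem _ hsS), ?_, ?_⟩
        · have h2 : ξ - (v + (t : ℂ) • s) = (ξ - v) - (t : ℂ) • s := by abel
          have h3 : ‖(t : ℂ) • s‖ = t * ‖s‖ := by
            rw [norm_smul, Complex.norm_real, Real.norm_eq_abs, abs_of_pos ht0]
          have h4 : t * ‖s‖ < δ - ‖ξ - v‖ := by
            rw [ht, div_mul_eq_mul_div, div_lt_iff₀ (by positivity)]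
            have h5 : 0 < δ - ‖ξ - v‖ := by linarith
            nlinarith [norm_nonneg s]
          rw [h2]
          calc ‖ξ - v - (t : ℂ) • s‖ ≤ ‖ξ - v‖ + ‖(t : ℂ) • s‖ := norm_sub_le _ _
            _ < δ := by
              rw [h3]
              linarith
        · intro h2
          rw [map_add, map_smul] at h2
          have h3 : (t : ℂ) • T s ∈ V.map T := by
            have h4 := sub_mem h2 h1
            rwa [add_sub_cancel_left] at h4
          have h5 : (t : ℂ) ≠ 0 := by exact_mod_cast ht0.ne'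
          exact hs ((Submodule.smul_mem_iff _ h5).1 h3)
      · exact ⟨v, hvS, hv, h1⟩
    refine ⟨V ⊔ Submodule.span ℂ {w}, inferInstance, sup_le hVS ?_, ?_, ?_⟩
    · rw [Submodule.span_le, Set.singleton_subset_iff]
      exact hwS
    · intro u hu hTu
      obtain ⟨a, ha, c, hc, rfl⟩ := Submodule.mem_sup.1 hu
      obtain ⟨μ, rfl⟩ := Submodule.mem_span_singleton.1 hc
      rw [map_add, map_smul] at hTu
      by_cases hμ : μ = 0
      · subst hμ
        rw [zero_smul, add_zero] at hTu ⊢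
        exact hVT a ha hTu
      · exfalso
        apply hwT
        rw [← Submodule.smul_mem_iff _ hμ]
        have h1 : μ • T w = - T a := by
          rw [eq_neg_iff_add_eq_zero, add_comm]
          exact hTu
        rw [h1]
        exact neg_mem (Submodule.mem_map_of_mem ha)
    · intro η hη
      rcases Finset.mem_insert.1 hη with rfl | hη
      · exact ⟨w, Submodule.mem_sup_right (Submodule.mem_span_singleton_self w), hwξ⟩
      · obtain ⟨u, hu, huη⟩ := hVF η hη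
        exact ⟨u, Submodule.mem_sup_left hu, huη⟩

/-- strict lower bound on a finite dimensional subspace without eigenvectors -/
theorem exact_bound {x : H →L[ℂ] H} (hx : IsSelfAdjoint x) (V : Submodule ℂ H)
    [FiniteDimensional ℂ V] (hV : ∀ v ∈ V, x v + (‖x‖ : ℂ) • v = 0 → v = 0) :
    ∃ c : ℝ, 0 < c ∧ ∀ v ∈ V, c * ‖v‖ ^ 2 ≤ (⟪v, x v⟫_ℂ).re + ‖x‖ * ‖v‖ ^ 2 := by
  set y : H →L[ℂ] H := x + (‖x‖ : ℂ) • 1 with hy
  have hyv : ∀ v, y v = x v + (‖x‖ : ℂ) • v := fun v => rfl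
  have hysa : IsSelfAdjoint y := by
    rw [hy, Complex.coe_smul]
    exact hx.add (IsSelfAdjoint.smul (IsSelfAdjoint.all _) (IsSelfAdjoint.one _))
  have hre : ∀ v, (⟪v, y v⟫_ℂ).re = (⟪v, x v⟫_ℂ).re + ‖x‖ * ‖v‖ ^ 2 := by
    intro v
    rw [hyv, inner_add_right, inner_smul_right, Complex.add_re, Complex.re_ofReal_mul]
    congr 2
    exact inner_self_eq_norm_sq (𝕜 := ℂ) v
  have hpos : y.IsPositive := by
    refine ContinuousLinearMap.isPositive_def'.2 ⟨hysa, fun v => ?_⟩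
    have h1 : y.reApplyInnerSelf v = (⟪v, y v⟫_ℂ).re := by
      rw [ContinuousLinearMap.reApplyInnerSelf_apply, Upper_sa hysa]
      rfl
    rw [h1, hre]
    have h2 : |(⟪v, x v⟫_ℂ).re| ≤ ‖x‖ * ‖v‖ ^ 2 := by
      calc |(⟪v, x v⟫_ℂ).re| ≤ ‖⟪v, x v⟫_ℂ‖ := Complex.abs_re_le_norm _
        _ ≤ ‖v‖ * ‖x v‖ := norm_inner_le_norm _ _
        _ ≤ ‖v‖ * (‖x‖ * ‖v‖) := mul_le_mul_of_nonneg_left (x.le_opNorm _) (norm_nonneg _)
        _ = ‖x‖ * ‖v‖ ^ 2 := by ring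
    have := neg_le_of_abs_le h2
    linarith
  have hy0 : 0 ≤ y := (ContinuousLinearMap.nonneg_iff_isPositive y).2 hpos
  set g := CFC.sqrt y with hg
  have hgg : g * g = y := CFC.sqrt_mul_sqrt_self y hy0
  have hgsa : IsSelfAdjoint g := (CFC.sqrt_nonneg y).isSelfAdjoint
  have hgv : ∀ v, g (g v) = y v := fun v => congrArg (fun T : H →L[ℂ] H => T v) hgg
  let f : V →ₗ[ℂ] H := (g : H →ₗ[ℂ] H).comp V.subtype
  have hf : LinearMap.ker f = ⊥ := by
    rw [LinearMap.ker_eq_bot']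
    intro v hv
    have h1 : g (v : H) = 0 := hv
    have h2 : y (v : H) = 0 := by
      rw [← hgv, h1, map_zero]
    rw [hyv] at h2
    exact Subtype.ext (hV v v.2 h2)
  obtain ⟨K, hK, hKf⟩ := f.exists_antilipschitzWith hf
  have hK0 : (0 : ℝ) < K := hK
  refine ⟨1 / (K : ℝ) ^ 2, by positivity, fun v hv => ?_⟩
  rw [← hre, ← hgv, ← Upper_sa hgsa]
  have h1 : ‖v‖ ≤ K * ‖g v‖ := by
    have h2 := hKf.le_mul_norm (map_zero f) ⟨v, hv⟩
    exact h2
  have h2 : (⟪g v, g v⟫_ℂ).re = ‖g v‖ ^ 2 := inner_self_eq_norm_sq (𝕜 := ℂ) (g v)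
  rw [h2, one_div, inv_mul_le_iff₀ (by positivity), ← mul_pow]
  exact pow_le_pow_left₀ (norm_nonneg _) h1 2

/-- norm of a compression through the quadratic form -/
theorem exact_compress {z : H →L[ℂ] H} (hz : IsSelfAdjoint z) (V : Submodule ℂ H)
    [FiniteDimensional ℂ V] {C : ℝ} (hC : 0 ≤ C) (h : ∀ v ∈ V, |(⟪v, z v⟫_ℂ).re| ≤ C * ‖v‖ ^ 2) :
    ‖V.starProjection * z * V.starProjection‖ ≤ C := by
  have hq := (isStarProjection_starProjection (U := V)).isSelfAdjoint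
  have hsa : IsSelfAdjoint (V.starProjection * z * V.starProjection) := by
    have h1 := hz.conjugate_self hq
    exact h1
  rw [ContinuousLinearMap.norm_eq_iSup_rayleighQuotient _ hsa.isSymmetric]
  refine ciSup_le fun v => ?_
  rw [ContinuousLinearMap.rayleighQuotient, abs_div, abs_of_nonneg (sq_nonneg ‖v‖)]
  refine div_le_of_le_mul₀ (sq_nonneg _) hC ?_
  have h1 : (V.starProjection * z * V.starProjection).reApplyInnerSelf v =
      (⟪V.starProjection v, z (V.starProjection v)⟫_ℂ).re := by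
    rw [ContinuousLinearMap.reApplyInnerSelf_apply, Upper_sa hsa]
    change (⟪v, V.starProjection (z (V.starProjection v))⟫_ℂ).re = _
    rw [← Upper_sa hq]
  rw [h1]
  refine (h _ (V.starProjection_apply_mem v)).trans (mul_le_mul_of_nonneg_left ?_ hC)
  exact pow_le_pow_left₀ (norm_nonneg _)
    (Upper_proj_norm (isStarProjection_starProjection (U := V)) v) 2

/-- a finite dimensional subspace of the algebraic cyclic space is in a step space -/
theorem exact_step (h : MA A) (ζ : H) (V : Submodule ℂ H) [FiniteDimensional ℂ V]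
    (hV : V ≤ stepSpan A ζ) :
    ∃ (n : ℕ) (e : Fin n → H →L[ℂ] H), IsPartition A e ∧
      V ≤ Submodule.span ℂ (Set.range fun i => e i ζ) := by
  classical
  obtain ⟨G, hG⟩ := (Module.Finite.iff_fg (N := V)).1 inferInstance
  have h1 : ∀ v : H, ∃ E : Finset (H →L[ℂ] H), (∀ e ∈ E, e ∈ A ∧ IsStarProjection e) ∧
      (v ∈ V → v ∈ Submodule.span ℂ ((fun e : H →L[ℂ] H => e ζ) '' (E : Set (H →L[ℂ] H)))) := by
    intro v
    by_cases hv : v ∈ V
    · obtain ⟨E, hE, hvE⟩ := Cyclic_fin (hV hv)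
      exact ⟨E, hE, fun _ => hvE⟩
    · exact ⟨∅, fun f hf => absurd hf (Finset.notMem_empty f), fun h' => absurd h' hv⟩
  choose E hE hv using h1
  obtain ⟨k, s, hs, hsum⟩ := exists_part_of_finset h.comm (G.biUnion E) (fun e he => by
    obtain ⟨ξ, _, he'⟩ := Finset.mem_biUnion.1 he
    exact hE ξ e he')
  refine ⟨k, s, hs, ?_⟩
  rw [← hG, Submodule.span_le]
  intro g hg
  have hgV : g ∈ V := by
    rw [← hG]
    exact Submodule.subset_span hg
  refine (Submodule.span_le.2 ?_) (hv g hgV)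
  rintro _ ⟨e, he, rfl⟩
  obtain ⟨S, hS⟩ := hsum e (Finset.mem_biUnion.2 ⟨g, Finset.mem_coe.1 hg, Finset.mem_coe.1 he⟩)
  change e ζ ∈ _
  rw [hS, _root_.sum_apply]
  exact Submodule.sum_mem _ fun j _ => Submodule.subset_span ⟨j, rfl⟩

/-- for a diffuse algebra the algebraic cyclic space of a nonzero vector is infinite dimensional -/
theorem exact_infinite (h : MA A) (hd : Diffuse A) {ζ : H} (hζ : ζ ≠ 0) :
    ¬ FiniteDimensional ℂ (stepSpan A ζ) := by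
  classical
  intro hfd
  set d := Module.finrank ℂ (stepSpan A ζ) with hdd
  have hζ0 : 0 < ‖ζ‖ := norm_pos_iff.2 hζ
  obtain ⟨n, e, he, hη⟩ := exists_fine h hd ζ (η := ‖ζ‖ ^ 2 / (d + 1)) (by positivity)
  set I : Finset (Fin n) := Finset.univ.filter fun i => e i ζ ≠ 0 with hI
  have h1 : ‖ζ‖ ^ 2 = ∑ i ∈ I, ‖e i ζ‖ ^ 2 := by
    rw [← Upper_norm_sq he ζ, hI, Finset.sum_filter]
    refine Finset.sum_congr rfl fun i _ => ?_
    by_cases h2 : e i ζ = 0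
    · simp [h2]
    · simp [h2]
  have h2 : ‖ζ‖ ^ 2 ≤ I.card * (‖ζ‖ ^ 2 / (d + 1)) := by
    calc ‖ζ‖ ^ 2 = ∑ i ∈ I, ‖e i ζ‖ ^ 2 := h1
      _ ≤ ∑ _i ∈ I, ‖ζ‖ ^ 2 / (d + 1) := Finset.sum_le_sum fun i _ => hη i
      _ = _ := by rw [Finset.sum_const, nsmul_eq_mul]
  have h3 : (d : ℝ) + 1 ≤ I.card := by
    rw [mul_div_assoc', le_div_iff₀ (by positivity)] at h2
    have h4 : 0 < ‖ζ‖ ^ 2 := by positivity
    nlinarith
  have h4 : d + 1 ≤ I.card := by exact_mod_cast h3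
  have hli : LinearIndependent ℂ (fun i : I => (⟨e i ζ, stepSpan_mem (he.mem i) (he.proj i)⟩ :
      stepSpan A ζ)) := by
    have h5 : LinearIndependent ℂ (fun i : I => e i ζ) := by
      refine linearIndependent_of_ne_zero_of_inner_eq_zero (𝕜 := ℂ) ?_ ?_
      · intro i
        exact (Finset.mem_filter.1 i.2).2
      · intro i j hij
        rw [Upper_sa (he.proj i).isSelfAdjoint]
        have h6 : e i (e j ζ) = 0 :=
          congrArg (fun T : H →L[ℂ] H => T ζ)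
            (he.orth i j (fun hh => hij (Subtype.ext hh)))
        rw [h6, inner_zero_right]
    exact LinearIndependent.of_comp (stepSpan A ζ).subtype h5
  have h5 := hli.fintype_card_le_finrank
  rw [Fintype.card_coe] at h5
  omega

theorem exact_dichotomy {x : H →L[ℂ] H} (hx0 : x ≠ 0) (S : Submodule ℂ H)
    (hS : ¬ FiniteDimensional ℂ S) :
    (∀ W : Submodule ℂ H, FiniteDimensional ℂ W →
      ∃ s ∈ S, ((x + (‖x‖ : ℂ) • 1 : H →L[ℂ] H) : H →ₗ[ℂ] H) s ∉ W) ∨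
    (∀ W : Submodule ℂ H, FiniteDimensional ℂ W →
      ∃ s ∈ S, ((-x + (‖-x‖ : ℂ) • 1 : H →L[ℂ] H) : H →ₗ[ℂ] H) s ∉ W) := by
  by_contra hcon
  rw [not_or] at hcon
  obtain ⟨h1, h2⟩ := hcon
  simp only [not_forall, not_exists, not_and, not_not] at h1 h2
  obtain ⟨W1, hW1, h1⟩ := h1
  obtain ⟨W2, hW2, h2⟩ := h2
  apply hS
  have hX : (‖x‖ : ℂ) ≠ 0 := by exact_mod_cast (norm_pos_iff.2 hx0).ne'
  have hle : S ≤ W1 ⊔ W2 := by
    intro s hs
    have h3 := add_mem ((le_sup_left : W1 ≤ W1 ⊔ W2) (h1 s hs))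
      ((le_sup_right : W2 ≤ W1 ⊔ W2) (h2 s hs))
    have h4 : ((x + (‖x‖ : ℂ) • 1 : H →L[ℂ] H) : H →ₗ[ℂ] H) s +
        ((-x + (‖-x‖ : ℂ) • 1 : H →L[ℂ] H) : H →ₗ[ℂ] H) s = (2 * (‖x‖ : ℂ)) • s := by
      change (x s + (‖x‖ : ℂ) • s) + (- x s + (‖-x‖ : ℂ) • s) = _
      rw [norm_neg, mul_smul, two_smul]
      abel
    rw [h4] at h3
    exact (Submodule.smul_mem_iff _ (mul_ne_zero two_ne_zero hX)).1 h3
  exact Submodule.finiteDimensional_of_le hle

theorem exact_sesq (V : Submodule ℂ H) [FiniteDimensional ℂ V] (D : H →L[ℂ] H) {κ : ℝ}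
    (hκ : 0 ≤ κ) (h : ∀ v ∈ V, ∀ w ∈ V, ‖⟪w, D v⟫_ℂ‖ ≤ κ * (‖w‖ * ‖v‖)) :
    ‖V.starProjection * D * V.starProjection‖ ≤ κ := by
  have hq := isStarProjection_starProjection (U := V)
  refine ContinuousLinearMap.opNorm_le_bound _ hκ fun ξ => ?_
  set u := (V.starProjection * D * V.starProjection) ξ with hu
  have hu' : u = V.starProjection (D (V.starProjection ξ)) := rfl
  have huV : u ∈ V := by
    rw [hu']
    exact V.starProjection_apply_mem _
  have h1 : ⟪u, u⟫_ℂ = ⟪u, D (V.starProjection ξ)⟫_ℂ := by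
    nth_rw 2 [hu']
    rw [← Upper_sa hq.isSelfAdjoint, Submodule.starProjection_eq_self_iff.2 huV]
  have h2 : ‖u‖ ^ 2 ≤ κ * (‖u‖ * ‖ξ‖) := by
    have h3 : ‖⟪u, u⟫_ℂ‖ = ‖u‖ ^ 2 := by
      rw [inner_self_eq_norm_sq_to_K]
      simp
    rw [← h3, h1]
    refine (h _ (V.starProjection_apply_mem ξ) _ huV).trans ?_
    exact mul_le_mul_of_nonneg_left
      (mul_le_mul_of_nonneg_left (Upper_proj_norm hq ξ) (norm_nonneg _)) hκ
  by_cases h0 : ‖u‖ = 0
  · rw [h0]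
    positivity
  · have h3 : 0 < ‖u‖ := lt_of_le_of_ne (norm_nonneg _) (Ne.symm h0)
    nlinarith

theorem exact_half (h : MA A) (hd : Diffuse A) {x : H →L[ℂ] H} (hx : IsSelfAdjoint x)
    (hx0 : x ≠ 0) (ζ : H)
    (hT : ∀ W : Submodule ℂ H, FiniteDimensional ℂ W →
      ∃ s ∈ stepSpan A ζ, ((x + (‖x‖ : ℂ) • 1 : H →L[ℂ] H) : H →ₗ[ℂ] H) s ∉ W)
    (F : Finset H) {δ : ℝ} (hF : ∀ ξ ∈ F, ∃ v ∈ stepSpan A ζ, ‖ξ - v‖ < δ) {r : ℕ} (hr1 : 1 ≤ r) :
    ∃ (p : Fin r → H →L[ℂ] H) (a q : H →L[ℂ] H),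
      IsPartition A p ∧ a ∈ A ∧ IsSelfAdjoint a ∧ ‖a‖ ≤ ‖x‖ ∧ IsStarProjection q ∧
      (∀ ξ ∈ F, ‖(1 - q) ξ‖ < δ) ∧ ‖q * (∑ i, p i * x * p i - a) * q‖ ≤ 1 / r * ‖x‖ := by
  have hX : 0 < ‖x‖ := norm_pos_iff.2 hx0
  have hr0 : (0 : ℝ) < r := by exact_mod_cast hr1
  have hr1' : 1 / (r : ℝ) ≤ 1 := by
    rw [div_le_one hr0]
    exact_mod_cast hr1
  obtain ⟨V, hVf, hVS, hVT, hVF⟩ := exact_indep _ _ hT F hF
  obtain ⟨c0, hc0, hc⟩ := exact_bound hx V (fun v hv h0 => hVT v hv h0)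
  obtain ⟨c, hcpos, hcc0, hcX⟩ : ∃ c : ℝ, 0 < c ∧ c ≤ c0 ∧ c ≤ ‖x‖ :=
    ⟨min c0 ‖x‖, lt_min hc0 hX, min_le_left _ _, min_le_right _ _⟩
  obtain ⟨n, e0, he0, hle⟩ := exact_step h ζ V hVS
  obtain ⟨p, B, hp, hB, hBs, hBn, hest⟩ := exact_core h hd hx ζ he0 (κ := 1 / r * (c / 2))
    (by positivity) hr1
  have hqs := isStarProjection_starProjection (U := V)
  have er : (1 - 1 / (r : ℂ)) = (((1 - 1 / r : ℝ)) : ℂ) := by push_cast; ring
  have hone : ‖(1 : H →L[ℂ] H)‖ ≤ 1 := ContinuousLinearMap.norm_id_le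
  refine ⟨p, (1 - 1 / (r : ℂ)) • B + ((1 / r * (c / 2) : ℝ) : ℂ) • 1, V.starProjection, hp,
    add_mem (A.smul_mem hB _) (A.smul_mem A.one_mem _), ?_, ?_, hqs, ?_, ?_⟩
  · rw [er, Complex.coe_smul, Complex.coe_smul]
    exact (IsSelfAdjoint.smul (IsSelfAdjoint.all _) hBs).add
      (IsSelfAdjoint.smul (IsSelfAdjoint.all _) (IsSelfAdjoint.one _))
  · have h1 : ‖(1 - 1 / (r : ℂ)) • B‖ ≤ (1 - 1 / r) * ‖x‖ := by
      rw [er, norm_smul, Complex.norm_real, Real.norm_eq_abs, abs_of_nonneg (by linarith)]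
      exact mul_le_mul_of_nonneg_left hBn (by linarith)
    have h2 : ‖((1 / r * (c / 2) : ℝ) : ℂ) • (1 : H →L[ℂ] H)‖ ≤ 1 / r * (c / 2) := by
      rw [norm_smul, Complex.norm_real, Real.norm_eq_abs, abs_of_nonneg (by positivity)]
      calc 1 / (r : ℝ) * (c / 2) * ‖(1 : H →L[ℂ] H)‖ ≤ 1 / (r : ℝ) * (c / 2) * 1 :=
            mul_le_mul_of_nonneg_left hone (by positivity)
        _ = _ := mul_one _
    have h3 : 1 / (r : ℝ) * (c / 2) ≤ 1 / r * ‖x‖ :=
      mul_le_mul_of_nonneg_left (by linarith) (by positivity)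
    calc _ ≤ (1 - 1 / (r : ℝ)) * ‖x‖ + 1 / r * (c / 2) := (norm_add_le _ _).trans (add_le_add h1 h2)
      _ ≤ (1 - 1 / (r : ℝ)) * ‖x‖ + 1 / r * ‖x‖ := by linarith
      _ = ‖x‖ := by ring
  · intro ξ hξ
    obtain ⟨v, hv, hξv⟩ := hVF ξ hξ
    have h2 : (1 - V.starProjection) ξ = (1 - V.starProjection) (ξ - v) := by
      rw [map_sub]
      have h3 : (1 - V.starProjection) v = 0 := by
        change v - V.starProjection v = 0
        rw [Submodule.starProjection_eq_self_iff.2 hv, sub_self]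
      rw [h3, sub_zero]
    rw [h2]
    exact (Upper_proj_norm hqs.one_sub _).trans_lt hξv
  · set D : H →L[ℂ] H := ∑ i, p i * x * p i - (1 - 1 / (r : ℂ)) • B - (1 / (r : ℂ)) • x with hD
    set z : H →L[ℂ] H := x - ((c / 2 : ℝ) : ℂ) • 1 with hz
    have e1 : ∑ i, p i * x * p i - ((1 - 1 / (r : ℂ)) • B + ((1 / r * (c / 2) : ℝ) : ℂ) • 1) =
        D + (1 / (r : ℂ)) • z := by
      rw [hD, hz, smul_sub, smul_smul]
      have e2 : (1 / (r : ℂ)) * ((c / 2 : ℝ) : ℂ) = ((1 / r * (c / 2) : ℝ) : ℂ) := by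
        push_cast
        ring
      rw [e2]
      abel
    have e2 : V.starProjection * (D + (1 / (r : ℂ)) • z) * V.starProjection =
        V.starProjection * D * V.starProjection +
          (1 / (r : ℂ)) • (V.starProjection * z * V.starProjection) := by
      simp only [mul_add, add_mul, mul_smul_comm, smul_mul_assoc]
    rw [e1, e2]
    have h1 : ‖V.starProjection * D * V.starProjection‖ ≤ 1 / r * (c / 2) :=
      exact_sesq V D (by positivity) fun v hv w hw => hest v (hle hv) w (hle hw)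
    have hzs : IsSelfAdjoint z := by
      rw [hz, Complex.coe_smul]
      exact hx.sub (IsSelfAdjoint.smul (IsSelfAdjoint.all _) (IsSelfAdjoint.one _))
    have h2 : ‖V.starProjection * z * V.starProjection‖ ≤ ‖x‖ - c / 2 := by
      refine exact_compress hzs V (by linarith) fun v hv => ?_
      have h3 : (⟪v, z v⟫_ℂ).re = (⟪v, x v⟫_ℂ).re - c / 2 * ‖v‖ ^ 2 := by
        have h4 : z v = x v - ((c / 2 : ℝ) : ℂ) • v := rfl
        rw [h4, inner_sub_right, inner_smul_right, Complex.sub_re, Complex.re_ofReal_mul]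
        congr 2
        exact inner_self_eq_norm_sq (𝕜 := ℂ) v
      have h5 : |(⟪v, x v⟫_ℂ).re| ≤ ‖x‖ * ‖v‖ ^ 2 := by
        calc |(⟪v, x v⟫_ℂ).re| ≤ ‖⟪v, x v⟫_ℂ‖ := Complex.abs_re_le_norm _
          _ ≤ ‖v‖ * ‖x v‖ := norm_inner_le_norm _ _
          _ ≤ ‖v‖ * (‖x‖ * ‖v‖) := mul_le_mul_of_nonneg_left (x.le_opNorm _) (norm_nonneg _)
          _ = ‖x‖ * ‖v‖ ^ 2 := by ring
      have h6 := le_of_abs_le h5
      have h7 := hc v hv
      have h8 : c * ‖v‖ ^ 2 ≤ c0 * ‖v‖ ^ 2 := mul_le_mul_of_nonneg_right hcc0 (sq_nonneg _)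
      rw [h3, abs_le]
      constructor <;> nlinarith
    have h3 : ‖(1 / (r : ℂ)) • (V.starProjection * z * V.starProjection)‖ ≤
        1 / r * (‖x‖ - c / 2) := by
      rw [norm_smul]
      have e3 : ‖(1 / (r : ℂ))‖ = 1 / (r : ℝ) := by simp
      rw [e3]
      exact mul_le_mul_of_nonneg_left h2 (by positivity)
    calc _ ≤ 1 / (r : ℝ) * (c / 2) + 1 / r * (‖x‖ - c / 2) :=
          (norm_add_le _ _).trans (add_le_add h1 h3)
      _ = 1 / r * ‖x‖ := by ring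

theorem exact_trivial {r : ℕ} (hr0 : 0 < r) :
    IsPartition A (fun i : Fin r => if i = ⟨0, hr0⟩ then (1 : H →L[ℂ] H) else 0) := by
  refine ⟨?_, ?_, ?_, ?_⟩
  · intro i
    split_ifs
    · exact A.one_mem
    · exact A.zero_mem
  · intro i
    split_ifs
    · exact IsStarProjection.one _
    · exact IsStarProjection.zero _
  · intro i j hij
    by_cases hi : i = ⟨0, hr0⟩
    · have hj : j ≠ ⟨0, hr0⟩ := fun hj => hij (hi.trans hj.symm)
      simp [hj]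
    · simp [hi]
  · simp

/-- **the sharp upper bound** -/
theorem exact_upper (h : MA A) (hd : Diffuse A) {x : H →L[ℂ] H} (hx : IsSelfAdjoint x) {ε : ℝ}
    (hε : 0 < ε) {r : ℕ} (hr : 1 / ε ≤ r) : SoPavable (BH H) A x ε r := by
  intro F δ hδ
  have hrR : (0 : ℝ) < r := lt_of_lt_of_le (by positivity) hr
  have hr0 : 0 < r := by exact_mod_cast hrR
  have h1r : 1 / (r : ℝ) ≤ ε := by
    rw [div_le_iff₀ hrR]
    rw [div_le_iff₀ hε] at hr
    linarith
  by_cases hx0 : x = 0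
  · subst hx0
    refine ⟨_, 0, 1, exact_trivial hr0, A.zero_mem, IsSelfAdjoint.zero _, by simp, mem_BH _,
      IsStarProjection.one _, ?_, ?_⟩
    · intro ξ _
      simpa using hδ
    · simp
  obtain ⟨ζ, hζ⟩ := exists_cyclic h F
  have hF : ∀ ξ ∈ F, ∃ v ∈ stepSpan A ζ, ‖ξ - v‖ < δ := by
    intro ξ hξ
    have h2 := hζ ξ hξ
    rw [← SetLike.mem_coe, Submodule.topologicalClosure_coe,
      Metric.mem_closure_iff] at h2
    obtain ⟨v, hv, hd⟩ := h2 δ hδ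
    rw [dist_eq_norm] at hd
    exact ⟨v, hv, hd⟩
  by_cases hζ0 : ζ = 0
  · refine ⟨_, 0, 0, exact_trivial hr0, A.zero_mem, IsSelfAdjoint.zero _, by simp, mem_BH _,
      IsStarProjection.zero _, ?_, ?_⟩
    · intro ξ hξ
      obtain ⟨v, hv, hξv⟩ := hF ξ hξ
      have h3 : v = 0 := by
        have h4 : stepSpan A ζ ≤ ⊥ := by
          refine Submodule.span_le.2 ?_
          rintro w ⟨e, -, -, rfl⟩
          rw [hζ0, map_zero]
          exact zero_mem _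
        exact (Submodule.mem_bot ℂ).1 (h4 hv)
      rw [h3, sub_zero] at hξv
      simpa using hξv
    · rw [zero_mul, zero_mul, norm_zero]
      positivity
  rcases exact_dichotomy hx0 _ (exact_infinite h hd hζ0) with hT | hT
  · obtain ⟨p, a, q, hp, ha, has, han, hq, hqF, hn⟩ := exact_half h hd hx hx0 ζ hT F hF hr0
    exact ⟨p, a, q, hp, ha, has, han, mem_BH _, hq, hqF,
      hn.trans (mul_le_mul_of_nonneg_right h1r (norm_nonneg _))⟩
  · obtain ⟨p, a, q, hp, ha, has, han, hq, hqF, hn⟩ :=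
      exact_half h hd hx.neg (neg_ne_zero.2 hx0) ζ hT F hF hr0
    refine ⟨p, -a, q, hp, neg_mem ha, has.neg, by rwa [norm_neg, ← norm_neg x], mem_BH _, hq, hqF,
      ?_⟩
    have e1 : q * (∑ i, p i * x * p i - -a) * q = -(q * (∑ i, p i * (-x) * p i - a) * q) := by
      have e2 : ∑ i, p i * (-x) * p i = - ∑ i, p i * x * p i := by
        rw [← Finset.sum_neg_distrib]
        exact Finset.sum_congr rfl fun i _ => by rw [mul_neg, neg_mul]
      have e3 : ∑ i, p i * x * p i - -a = -(-(∑ i, p i * x * p i) - a) := by abel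
      rw [e2, e3, mul_neg, neg_mul]
    rw [e1, norm_neg]
    rw [norm_neg] at hn
    exact hn.trans (mul_le_mul_of_nonneg_right h1r (norm_nonneg _))

end Vale.Agent.P078
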