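import Vale.Agent.Lib.P078S.Masa
import Vale.Agent.Lib.P078S.Refine

/-!
# P078S Fine: fine partitions in a diffuse algebra

`exists_small`: halving.  `e ≠ 0` has a proper nonzero subprojection `q` (`Diffuse`), `e - q` is a
nonzero projection of `A`, `‖e ζ‖² = ‖q ζ‖² + ‖(e - q) ζ‖²`; so by induction on `n` there is a
nonzero `f ≤ e` in `A` with `‖f ζ‖² ≤ ‖ζ‖² / 2^n`.

`exists_fine`: let `G` be the set of projections `e ∈ A` such that there is a finite family of
mutually orthogonal projections of `A` with sum `e` and `‖f ζ‖² ≤ η` for each member.  `G` is closed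
under subprojections (multiply the family) and under `e, e' ↦ e + e' - e e'` (`e + (1 - e) e'`).
So `{v : ∃ e ∈ G, e v = v}` is a subspace, `A`-invariant; let `P` be the projection onto its closure,
`P ∈ A` (`proj_mem`).  If `P ≠ 1` then `1 - P` has a nonzero subprojection `f ∈ A` with
`‖f ζ‖² ≤ η`, `f ∈ G`, contradiction.  So `ζ` is a limit of `v`'s with `e v = v`, `e ∈ G`;
`‖(1 - e) ζ‖ = ‖(1 - e)(ζ - v)‖ ≤ ‖ζ - v‖`, so `1 - e` may be added to the family of `e`.
`exists_orth`: `N` mutually orthogonal nonzero projections, by repeated splitting.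
-/

namespace Vale.Agent.P078

universe u

variable {H : Type u} [NormedAddCommGroup H] [InnerProductSpace ℂ H] [CompleteSpace H]
  {A : StarSubalgebra ℂ (H →L[ℂ] H)}

/-- a proper subprojection gives a splitting -/
private theorem fine_split (hd : Diffuse A) {e : H →L[ℂ] H} (he : e ∈ A) (hp : IsStarProjection e)
    (h0 : e ≠ 0) :
    ∃ q ∈ A, IsStarProjection q ∧ q ≠ 0 ∧ q * e = q ∧ e * q = q ∧ (e - q) ∈ A ∧
      IsStarProjection (e - q) ∧ e - q ≠ 0 := by
  obtain ⟨q, hqA, hq, hq0, hqe, hqm⟩ := hd e he hp h0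
  have h1 : e * q = q := by
    have h := congrArg star hqm
    rwa [star_mul, hp.isSelfAdjoint.star_eq, hq.isSelfAdjoint.star_eq] at h
  refine ⟨q, hqA, hq, hq0, hqm, h1, sub_mem he hqA, ⟨?_, ?_⟩, fun h => hqe (sub_eq_zero.1 h).symm⟩
  · change (e - q) * (e - q) = e - q
    rw [mul_sub, sub_mul, sub_mul, hp.isIdempotentElem.eq, hqm, h1, hq.isIdempotentElem.eq]
    abel
  · exact hp.isSelfAdjoint.sub hq.isSelfAdjoint

private theorem fine_inner {p q : H →L[ℂ] H} (hp : IsStarProjection p) (h : p * q = 0) (ζ : H) :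
    ‖(p + q) ζ‖ ^ 2 = ‖p ζ‖ ^ 2 + ‖q ζ‖ ^ 2 := by
  have h1 : inner ℂ (p ζ) (q ζ) = 0 := by
    have h2 : star p = p := hp.isSelfAdjoint.star_eq
    rw [← h2, ContinuousLinearMap.star_eq_adjoint, ContinuousLinearMap.adjoint_inner_left]
    have h3 : p (q ζ) = (p * q) ζ := rfl
    rw [h3, h]
    simp
  have h2 := norm_add_sq_eq_norm_sq_add_norm_sq_of_inner_eq_zero (p ζ) (q ζ) h1
  have h3 : (p + q) ζ = p ζ + q ζ := rfl
  rw [h3, sq, sq, sq]
  exact h2

private theorem fine_norm_le {p : H →L[ℂ] H} (hp : IsStarProjection p) (ζ : H) :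
    ‖p ζ‖ ≤ ‖ζ‖ := by
  have h1 : p * (1 - p) = 0 := by
    rw [mul_sub, mul_one, hp.isIdempotentElem.eq, sub_self]
  have h2 := fine_inner hp h1 ζ
  rw [add_sub_cancel] at h2
  have h3 : (1 : H →L[ℂ] H) ζ = ζ := rfl
  rw [h3] at h2
  have h4 : ‖p ζ‖ ^ 2 ≤ ‖ζ‖ ^ 2 := by
    rw [h2]
    exact le_add_of_nonneg_right (sq_nonneg _)
  exact (abs_le_of_sq_le_sq' h4 (norm_nonneg _)).2

theorem exists_small (hd : Diffuse A) {e : H →L[ℂ] H} (he : e ∈ A) (hp : IsStarProjection e)
    (h0 : e ≠ 0) (ζ : H) {η : ℝ} (hη : 0 < η) :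
    ∃ f ∈ A, IsStarProjection f ∧ f ≠ 0 ∧ f * e = f ∧ ‖f ζ‖ ^ 2 ≤ η := by
  have key : ∀ n : ℕ, ∃ f ∈ A, IsStarProjection f ∧ f ≠ 0 ∧ f * e = f ∧
      ‖f ζ‖ ^ 2 ≤ ‖ζ‖ ^ 2 / 2 ^ n := by
    intro n
    induction n with
    | zero =>
      refine ⟨e, he, hp, h0, hp.isIdempotentElem.eq, ?_⟩
      rw [pow_zero, div_one]
      exact pow_le_pow_left₀ (norm_nonneg _) (fine_norm_le hp ζ) 2
    | succ n ih =>
      obtain ⟨f, hfA, hf, hf0, hfe, hfn⟩ := ih
      obtain ⟨q, hqA, hq, hq0, hqf, hfq, hsA, hs, hs0⟩ := fine_split hd hfA hf hf0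
      have h1 : q * (f - q) = 0 := by
        rw [mul_sub, hqf, hq.isIdempotentElem.eq, sub_self]
      have h2 := fine_inner hq h1 ζ
      rw [add_sub_cancel] at h2
      have h3 : ‖ζ‖ ^ 2 / 2 ^ (n + 1) = (‖ζ‖ ^ 2 / 2 ^ n) / 2 := by
        rw [div_div, ← pow_succ (2 : ℝ) n]
      rw [h3]
      rcases le_total (‖q ζ‖ ^ 2) (‖(f - q) ζ‖ ^ 2) with h4 | h4
      · refine ⟨q, hqA, hq, hq0, ?_, by linarith⟩
        rw [← hqf, mul_assoc, hfe]
      · refine ⟨f - q, hsA, hs, hs0, ?_, by linarith⟩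
        have h5 : (f - q) * f = f - q := by
          rw [sub_mul, hf.isIdempotentElem.eq, hqf]
        rw [← h5, mul_assoc, hfe]
  obtain ⟨n, hn⟩ : ∃ n : ℕ, ‖ζ‖ ^ 2 / 2 ^ n ≤ η := by
    obtain ⟨n, hn⟩ := pow_unbounded_of_one_lt (‖ζ‖ ^ 2 / η) (one_lt_two)
    refine ⟨n, ?_⟩
    rw [div_le_iff₀ (by positivity)]
    rw [div_lt_iff₀ hη] at hn
    linarith
  obtain ⟨f, h1, h2, h3, h4, h5⟩ := key n
  exact ⟨f, h1, h2, h3, h4, h5.trans hn⟩

/-- finite sums of orthogonal small projections -/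
private def FineG (A : StarSubalgebra ℂ (H →L[ℂ] H)) (ζ : H) (η : ℝ) (e : H →L[ℂ] H) : Prop :=
  ∃ (n : ℕ) (p : Fin n → H →L[ℂ] H), (∀ i, p i ∈ A ∧ IsStarProjection (p i) ∧ ‖p i ζ‖ ^ 2 ≤ η) ∧
    (∀ i j, i ≠ j → p i * p j = 0) ∧ ∑ i, p i = e

private theorem fineG_left {n : ℕ} {p : Fin n → H →L[ℂ] H} (h1 : ∀ i, IsStarProjection (p i))
    (h2 : ∀ i j, i ≠ j → p i * p j = 0) (i : Fin n) : p i * ∑ j, p j = p i := by
  rw [Finset.mul_sum, Finset.sum_eq_single i]
  · exact (h1 i).isIdempotentElem.eq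
  · intro j _ hj
    exact h2 i j hj.symm
  · intro h
    exact absurd (Finset.mem_univ i) h

private theorem fineG_right {n : ℕ} {p : Fin n → H →L[ℂ] H} (h1 : ∀ i, IsStarProjection (p i))
    (h2 : ∀ i j, i ≠ j → p i * p j = 0) (i : Fin n) : (∑ j, p j) * p i = p i := by
  rw [Finset.sum_mul, Finset.sum_eq_single i]
  · exact (h1 i).isIdempotentElem.eq
  · intro j _ hj
    exact h2 j i hj
  · intro h
    exact absurd (Finset.mem_univ i) h

private theorem fineG_mem {ζ : H} {η : ℝ} {e : H →L[ℂ] H} (h : FineG A ζ η e) :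
    e ∈ A ∧ IsStarProjection e := by
  obtain ⟨n, p, h1, h2, rfl⟩ := h
  refine ⟨sum_mem fun i _ => (h1 i).1, ⟨?_, ?_⟩⟩
  · change (∑ i, p i) * (∑ i, p i) = ∑ i, p i
    rw [Finset.sum_mul]
    exact Finset.sum_congr rfl fun i _ => fineG_left (fun i => (h1 i).2.1) h2 i
  · change star (∑ i, p i) = ∑ i, p i
    rw [star_sum]
    exact Finset.sum_congr rfl fun i _ => (h1 i).2.1.isSelfAdjoint.star_eq

private theorem fineG_one {ζ : H} {η : ℝ} {f : H →L[ℂ] H} (hf : f ∈ A) (hp : IsStarProjection f)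
    (h : ‖f ζ‖ ^ 2 ≤ η) : FineG A ζ η f :=
  ⟨1, fun _ => f, fun _ => ⟨hf, hp, h⟩, fun i j hij => absurd (Subsingleton.elim i j) hij,
    by simp⟩

private theorem fineG_mul (hc : ∀ a ∈ A, ∀ b ∈ A, a * b = b * a) {ζ : H} {η : ℝ}
    {e f : H →L[ℂ] H} (h : FineG A ζ η e) (hf : f ∈ A) (hp : IsStarProjection f) :
    FineG A ζ η (f * e) := by
  obtain ⟨n, p, h1, h2, rfl⟩ := h
  refine ⟨n, fun i => f * p i, fun i => ⟨mul_mem hf (h1 i).1, ⟨?_, ?_⟩, ?_⟩, fun i j hij => ?_,
    Finset.mul_sum _ _ _ |>.symm⟩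
  · change f * p i * (f * p i) = f * p i
    rw [mul_assoc, ← mul_assoc (p i) f, hc _ (h1 i).1 _ hf, mul_assoc f (p i),
      (h1 i).2.1.isIdempotentElem.eq, ← mul_assoc, hp.isIdempotentElem.eq]
  · change star (f * p i) = f * p i
    rw [star_mul, hp.isSelfAdjoint.star_eq, (h1 i).2.1.isSelfAdjoint.star_eq,
      hc _ (h1 i).1 _ hf]
  · have h3 : (f * p i) ζ = f (p i ζ) := rfl
    rw [h3]
    exact (pow_le_pow_left₀ (norm_nonneg _) (fine_norm_le hp _) 2).trans (h1 i).2.2
  · rw [mul_assoc, ← mul_assoc (p i) f, hc _ (h1 i).1 _ hf, mul_assoc f (p i), h2 i j hij,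
      mul_zero, mul_zero]

private theorem fineG_add {ζ : H} {η : ℝ} {e e' : H →L[ℂ] H} (h : FineG A ζ η e)
    (h' : FineG A ζ η e') (ho : e * e' = 0) (ho' : e' * e = 0) : FineG A ζ η (e + e') := by
  obtain ⟨n, p, h1, h2, rfl⟩ := h
  obtain ⟨m, q, h3, h4, rfl⟩ := h'
  have hpq : ∀ i j, p i * q j = 0 := by
    intro i j
    rw [← fineG_left (fun i => (h1 i).2.1) h2 i, ← fineG_right (fun i => (h3 i).2.1) h4 j,
      mul_assoc, ← mul_assoc (∑ j, p j), ho, zero_mul, mul_zero]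
  have hqp : ∀ i j, q i * p j = 0 := by
    intro i j
    rw [← fineG_left (fun i => (h3 i).2.1) h4 i, ← fineG_right (fun i => (h1 i).2.1) h2 j,
      mul_assoc, ← mul_assoc (∑ j, q j), ho', zero_mul, mul_zero]
  refine ⟨n + m, Fin.append p q, fun i => ?_, fun i j => ?_, ?_⟩
  · refine Fin.addCases (fun i => ?_) (fun i => ?_) i
    · rw [Fin.append_left]
      exact h1 i
    · rw [Fin.append_right]
      exact h3 i
  · refine Fin.addCases (fun i => ?_) (fun i => ?_) i <;>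
      refine Fin.addCases (fun j => ?_) (fun j => ?_) j
    · intro hij
      rw [Fin.append_left, Fin.append_left]
      exact h2 i j fun h => hij (by rw [h])
    · intro _
      rw [Fin.append_left, Fin.append_right]
      exact hpq i j
    · intro _
      rw [Fin.append_right, Fin.append_left]
      exact hqp i j
    · intro hij
      rw [Fin.append_right, Fin.append_right]
      exact h4 i j fun h => hij (by rw [h])
  · rw [Fin.sum_univ_add]
    simp only [Fin.append_left, Fin.append_right]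

private theorem fineG_union (hc : ∀ a ∈ A, ∀ b ∈ A, a * b = b * a) {ζ : H} {η : ℝ}
    {e e' : H →L[ℂ] H} (h : FineG A ζ η e) (h' : FineG A ζ η e') :
    FineG A ζ η (e + (1 - e) * e') := by
  have he := fineG_mem h
  have he' := fineG_mem h'
  have h1 : e * (1 - e) = 0 := by
    rw [mul_sub, mul_one, he.2.isIdempotentElem.eq, sub_self]
  have h2 : (1 - e) ∈ A := sub_mem (one_mem A) he.1
  refine fineG_add h (fineG_mul hc h' h2 he.2.one_sub) ?_ ?_
  · rw [← mul_assoc, h1, zero_mul]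
  · rw [hc _ h2 _ he'.1, mul_assoc, hc _ h2 _ he.1, h1, mul_zero]

/-- the vectors fixed by some member -/
private def fineK (hc : ∀ a ∈ A, ∀ b ∈ A, a * b = b * a) (ζ : H) {η : ℝ} (hη : 0 < η) :
    Submodule ℂ H where
  carrier := {v | ∃ e, FineG A ζ η e ∧ e v = v}
  add_mem' := by
    rintro v w ⟨e, he, hv⟩ ⟨e', he', hw⟩
    refine ⟨e + (1 - e) * e', fineG_union hc he he', ?_⟩
    have h1 := fineG_mem he
    have h2 := fineG_mem he'
    have h3 : (e + (1 - e) * e') v = v := by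
      change e v + (e' v - e (e' v)) = v
      have h4 : e (e' v) = e' (e v) := by
        change (e * e') v = (e' * e) v
        rw [hc _ h1.1 _ h2.1]
      rw [h4, hv, sub_self, add_zero]
    have h5 : (e + (1 - e) * e') w = w := by
      change e w + (e' w - e (e' w)) = w
      rw [hw]
      abel
    rw [map_add, h3, h5]
  zero_mem' := ⟨0, fineG_one (zero_mem A) (IsStarProjection.zero _) (by simp [hη.le]), map_zero _⟩
  smul_mem' := by
    rintro c v ⟨e, he, hv⟩
    exact ⟨e, he, by rw [map_smul, hv]⟩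

theorem exists_fine (h : MA A) (hd : Diffuse A) (ζ : H) {η : ℝ} (hη : 0 < η) :
    ∃ (n : ℕ) (p : Fin n → H →L[ℂ] H), IsPartition A p ∧ ∀ i, ‖p i ζ‖ ^ 2 ≤ η := by
  set K : Submodule ℂ H := (fineK h.comm ζ hη).topologicalClosure with hK
  have hKc : IsClosed (K : Set H) := Submodule.isClosed_topologicalClosure _
  have : CompleteSpace K := hKc.completeSpace_coe
  have hinv : ∀ a ∈ A, ∀ v ∈ K, a v ∈ K := by
    intro a ha v hv
    have h1 : Set.MapsTo a (fineK h.comm ζ hη : Set H) (fineK h.comm ζ hη : Set H) := by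
      rintro w ⟨e, he, hw⟩
      refine ⟨e, he, ?_⟩
      change (e * a) w = a w
      rw [h.comm _ (fineG_mem he).1 _ ha]
      change a (e w) = a w
      rw [hw]
    exact h1.closure a.continuous hv
  have hP := proj_mem h K hinv
  have hPp : IsStarProjection K.starProjection := isStarProjection_starProjection
  have hP1 : K.starProjection = 1 := by
    by_contra hne
    have h0 : (1 - K.starProjection : H →L[ℂ] H) ≠ 0 := fun h => hne (sub_eq_zero.1 h).symm
    obtain ⟨f, hfA, hf, hf0, hfe, hfn⟩ :=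
      exists_small hd (sub_mem (one_mem A) hP) hPp.one_sub h0 ζ hη
    have h1 : f * K.starProjection = 0 := by
      rw [mul_sub, mul_one] at hfe
      have := sub_eq_self.1 hfe
      exact this
    have h2 : K.starProjection * f = 0 := by
      have h3 := congrArg star h1
      rwa [star_mul, hf.isSelfAdjoint.star_eq, hPp.isSelfAdjoint.star_eq, star_zero] at h3
    apply hf0
    refine ContinuousLinearMap.ext fun w => ?_
    have h4 : f w ∈ K := by
      refine Submodule.le_topologicalClosure _ ⟨f, fineG_one hfA hf hfn, ?_⟩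
      change (f * f) w = f w
      rw [hf.isIdempotentElem.eq]
    have h5 : K.starProjection (f w) = f w := Submodule.starProjection_eq_self_iff.2 h4
    rw [← h5]
    change (K.starProjection * f) w = 0
    rw [h2]
    rfl
  have hζ : ζ ∈ K := by
    have h1 : K.starProjection ζ = ζ := by
      rw [hP1]
      rfl
    exact Submodule.starProjection_eq_self_iff.1 h1
  have hsq : 0 < Real.sqrt η := Real.sqrt_pos.2 hη
  obtain ⟨v, ⟨e, he, hv⟩, hvd⟩ := Metric.mem_closure_iff.1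
    (show ζ ∈ closure (fineK h.comm ζ hη : Set H) from hζ) (Real.sqrt η) hsq
  have hem := fineG_mem he
  have h1 : ‖(1 - e) ζ‖ ^ 2 ≤ η := by
    have h2 : (1 - e) ζ = (1 - e) (ζ - v) := by
      have h3 : (1 - e) v = 0 := by
        change v - e v = 0
        rw [hv, sub_self]
      rw [map_sub, h3, sub_zero]
    rw [h2]
    have h4 := fine_norm_le hem.2.one_sub (ζ - v)
    rw [dist_eq_norm] at hvd
    calc ‖(1 - e) (ζ - v)‖ ^ 2 ≤ (Real.sqrt η) ^ 2 :=
          pow_le_pow_left₀ (norm_nonneg _) (h4.trans hvd.le) 2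
      _ = η := Real.sq_sqrt hη.le
  have h5 : FineG A ζ η (e + (1 - e)) := by
    refine fineG_add he (fineG_one (sub_mem (one_mem A) hem.1) hem.2.one_sub h1) ?_ ?_
    · rw [mul_sub, mul_one, hem.2.isIdempotentElem.eq, sub_self]
    · rw [sub_mul, one_mul, hem.2.isIdempotentElem.eq, sub_self]
  rw [add_sub_cancel] at h5
  obtain ⟨n, p, h6, h7, h8⟩ := h5
  exact ⟨n, p, ⟨fun i => (h6 i).1, fun i => (h6 i).2.1, h7, h8⟩, fun i => (h6 i).2.2⟩

private theorem fine_orth (hd : Diffuse A) (N : ℕ) : ∀ e ∈ A, IsStarProjection e → e ≠ 0 →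
    ∃ f : Fin N → H →L[ℂ] H, (∀ i, f i ∈ A ∧ IsStarProjection (f i) ∧ f i ≠ 0 ∧ f i * e = f i) ∧
      ∀ i j, i ≠ j → f i * f j = 0 := by
  induction N with
  | zero =>
    intro e _ _ _
    exact ⟨fun i => i.elim0, fun i => i.elim0, fun i => i.elim0⟩
  | succ N ih =>
    intro e heA he he0
    obtain ⟨q, hqA, hq, hq0, hqe, heq, hsA, hs, hs0⟩ := fine_split hd heA he he0
    obtain ⟨f, hf, hfo⟩ := ih (e - q) hsA hs hs0
    have h1 : ∀ i, f i * q = 0 := by
      intro i
      rw [← (hf i).2.2.2, mul_assoc, sub_mul, heq, hq.isIdempotentElem.eq, sub_self, mul_zero]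
    have h2 : ∀ i, q * f i = 0 := by
      intro i
      have h3 := congrArg star (h1 i)
      rwa [star_mul, hq.isSelfAdjoint.star_eq, (hf i).2.1.isSelfAdjoint.star_eq, star_zero] at h3
    refine ⟨Fin.cons q f, fun i => ?_, fun i j => ?_⟩
    · refine Fin.cases ?_ (fun i => ?_) i
      · rw [Fin.cons_zero]
        exact ⟨hqA, hq, hq0, hqe⟩
      · rw [Fin.cons_succ]
        refine ⟨(hf i).1, (hf i).2.1, (hf i).2.2.1, ?_⟩
        have h4 := (hf i).2.2.2
        rw [mul_sub, h1 i, sub_zero] at h4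
        exact h4
    · refine Fin.cases ?_ (fun i => ?_) i <;> refine Fin.cases ?_ (fun j => ?_) j
      · intro h
        exact absurd rfl h
      · intro _
        rw [Fin.cons_zero, Fin.cons_succ]
        exact h2 j
      · intro _
        rw [Fin.cons_zero, Fin.cons_succ]
        exact h1 i
      · intro hij
        rw [Fin.cons_succ, Fin.cons_succ]
        exact hfo i j fun h => hij (by rw [h])

theorem exists_orth [Nontrivial H] (hd : Diffuse A) (N : ℕ) :
    ∃ f : Fin N → H →L[ℂ] H, (∀ i, f i ∈ A ∧ IsStarProjection (f i) ∧ f i ≠ 0) ∧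
      ∀ i j, i ≠ j → f i * f j = 0 := by
  obtain ⟨f, h1, h2⟩ := fine_orth hd N 1 (one_mem A) (IsStarProjection.one _) one_ne_zero
  exact ⟨f, fun i => ⟨(h1 i).1, (h1 i).2.1, (h1 i).2.2.1⟩, h2⟩

end Vale.Agent.P078
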