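import Vale.Agent.Lib.P078S.Defs

/-!
# P078S Masa: basic facts

`ma_of_masa`: if a self-adjoint `x` commutes with `A` then the star subalgebra generated by `A` and
`x` is commutative (`StarAlgebra.adjoinCommRingOfComm` or `StarAlgebra.adjoin_induction`), hence
contained in `A`.  A general `x` commuting with `A`: `x⋆` commutes with `A` too (`A` is
self-adjoint), so the real and imaginary parts `(x + x⋆)/2`, `(x - x⋆)/(2i)` are in `A`.

`proj_mem`: `A` is self-adjoint, so `Kᗮ` is invariant too and the orthogonal projection commutes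
with `A`.

`cfc_mem`: `cfc f a` commutes with everything which commutes with `a` (`Commute.cfc_real` or
similar; if `a` is not self-adjoint `cfc f a = 0`).
-/

namespace Vale.Agent.P078

universe u

variable {H : Type u} [NormedAddCommGroup H] [InnerProductSpace ℂ H] [CompleteSpace H]
  {A : StarSubalgebra ℂ (H →L[ℂ] H)}

private theorem masa_sa (h : IsMASA (BH H) A) {x : H →L[ℂ] H} (hx : star x = x)
    (hc : ∀ a ∈ A, a * x = x * a) : x ∈ A := by
  let s : Set (H →L[ℂ] H) := (A : Set (H →L[ℂ] H)) ∪ {x}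
  have hcomm : ∀ a : H →L[ℂ] H, a ∈ s → ∀ b : H →L[ℂ] H, b ∈ s → a * b = b * a := by
    rintro a (ha | rfl) b (hb | rfl)
    · exact h.comm a ha b hb
    · exact hc a ha
    · exact (hc b hb).symm
    · rfl
  have hstar : ∀ b ∈ s, star b ∈ s := by
    rintro b (hb | rfl)
    · exact Or.inl (star_mem (S := StarSubalgebra ℂ (H →L[ℂ] H)) hb)
    · exact Or.inr hx
  have hcomm2 : ∀ a : H →L[ℂ] H, a ∈ s → ∀ b : H →L[ℂ] H, b ∈ s → a * star b = star b * a :=
    fun a ha b hb => hcomm a ha _ (hstar b hb)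
  have hB : ∀ a ∈ StarAlgebra.adjoin ℂ s, ∀ b ∈ StarAlgebra.adjoin ℂ s, a * b = b * a := by
    intro a ha b hb
    have h1 := StarAlgebra.isMulCommutative_adjoin ℂ hcomm hcomm2
    have h2 := h1.is_comm.comm (⟨a, ha⟩ : StarAlgebra.adjoin ℂ s) ⟨b, hb⟩
    exact congrArg Subtype.val h2
  have h3 : A ≤ StarAlgebra.adjoin ℂ s := fun a ha =>
    StarAlgebra.subset_adjoin ℂ s (Or.inl ha)
  exact h.maximal _ (fun b _ => mem_BH b) hB h3 (StarAlgebra.subset_adjoin ℂ s (Or.inr rfl))

theorem ma_of_masa (h : IsMASA (BH H) A) : MA A := by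
  refine ⟨h.comm, fun x hx => ?_⟩
  have hx' : ∀ a ∈ A, a * star x = star x * a := by
    intro a ha
    have h1 := hx (star a) (star_mem ha)
    have h2 := congrArg star h1
    rw [star_mul, star_mul, star_star] at h2
    exact h2.symm
  have h1 : x + star x ∈ A := by
    refine masa_sa h ?_ fun a ha => ?_
    · rw [star_add, star_star, add_comm]
    · rw [mul_add, add_mul, hx a ha, hx' a ha]
  have h2 : Complex.I • (x - star x) ∈ A := by
    refine masa_sa h ?_ fun a ha => ?_
    · rw [star_smul, star_sub, star_star, Complex.star_def, Complex.conj_I, neg_smul,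
        ← smul_neg, neg_sub]
    · rw [mul_smul_comm, smul_mul_assoc, mul_sub, sub_mul, hx a ha, hx' a ha]
  have h3 : x = (1 / 2 : ℂ) • (x + star x) + (-Complex.I / 2) • (Complex.I • (x - star x)) := by
    rw [smul_smul]
    have h4 : -Complex.I / 2 * Complex.I = (1 / 2 : ℂ) := by
      rw [div_mul_eq_mul_div, neg_mul, Complex.I_mul_I, neg_neg]
    rw [h4, ← smul_add, add_add_sub_cancel, ← two_smul ℂ x, smul_smul]
    norm_num
  rw [h3]
  exact A.add_mem (A.smul_mem h1 _) (A.smul_mem h2 _)

theorem proj_mem (h : MA A) (K : Submodule ℂ H) [K.HasOrthogonalProjection]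
    (hK : ∀ a ∈ A, ∀ v ∈ K, a v ∈ K) : K.starProjection ∈ A := by
  refine h.cent _ fun a ha => ?_
  ext v
  change a (K.starProjection v) = K.starProjection (a v)
  symm
  refine Submodule.eq_starProjection_of_mem_orthogonal (hK a ha _ (K.starProjection_apply_mem v)) ?_
  rw [← map_sub]
  have h1 := K.sub_starProjection_mem_orthogonal v
  rw [Submodule.mem_orthogonal] at h1 ⊢
  intro w hw
  rw [← ContinuousLinearMap.adjoint_inner_left]
  exact h1 _ (hK (star a) (star_mem ha) w hw)

theorem cfc_mem (h : MA A) {a : H →L[ℂ] H} (ha : a ∈ A) (f : ℝ → ℝ) : cfc f a ∈ A := by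
  refine h.cent _ fun b hb => ?_
  have h1 : Commute a b := h.comm a ha b hb
  exact (h1.cfc_real f).symm

end Vale.Agent.P078
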