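import Vale.Agent.Lib.P078S.Defs
import Vale.Agent.Lib.P078S.Prob

/-!
# P078S Paving: a good colouring of a fine partition

`colP e χ c = ∑_{χ l = c} e l`.  Then
`∑_c colP c * x * colP c - (1 - 1/r) ∑_l e_l x e_l - (1/r) x = ∑_{l ≠ m} (1[χ l = χ m] - 1/r) e_l x e_m`
(as `x = ∑_{l,m} e_l x e_m`), so the inner product with `v k'`, `v k` is `colS` of
`w l m = ⟪v k', e_l x e_m (v k)⟫ = ⟪e_l (v k'), e_l x e_m (v k)⟫`, and
`∑_l |w l m|² ≤ η ∑_l ‖e_l x e_m (v k)‖² = η ‖x e_m (v k)‖² ≤ η ‖x‖² ‖e_m (v k)‖²`, sum over `m` is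
`η ‖x‖² ‖v k‖²`.  `exists_color` with `ι × ι`.
-/

namespace Vale.Agent.P078

open Finset
open scoped InnerProductSpace

universe u

variable {H : Type u} [NormedAddCommGroup H] [InnerProductSpace ℂ H] [CompleteSpace H]
  {A : StarSubalgebra ℂ (H →L[ℂ] H)}

/-- the union of the pieces of colour `c` -/
noncomputable def colP {r n : ℕ} (e : Fin n → H →L[ℂ] H) (χ : Fin n → Fin r) (c : Fin r) :
    H →L[ℂ] H := ∑ l with χ l = c, e l

private theorem Paving_mul {n : ℕ} {e : Fin n → H →L[ℂ] H} (he : IsPartition A e)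
    (S T : Finset (Fin n)) : (∑ l ∈ S, e l) * (∑ m ∈ T, e m) = ∑ l ∈ S ∩ T, e l := by
  rw [Finset.sum_mul]
  have h1 : ∀ l ∈ S, e l * (∑ m ∈ T, e m) = if l ∈ T then e l else 0 := by
    intro l _
    rw [Finset.mul_sum]
    by_cases hl : l ∈ T
    · rw [if_pos hl, Finset.sum_eq_single l]
      · exact (he.proj l).isIdempotentElem
      · intro m _ hm
        exact he.orth l m (Ne.symm hm)
      · intro h
        exact absurd hl h
    · rw [if_neg hl]
      refine Finset.sum_eq_zero fun m hm => he.orth l m ?_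
      rintro rfl
      exact hl hm
  rw [Finset.sum_congr rfl h1, ← Finset.sum_filter, Finset.filter_mem_eq_inter]

theorem colP_part {r n : ℕ} {e : Fin n → H →L[ℂ] H} (he : IsPartition A e)
    (χ : Fin n → Fin r) : IsPartition A (colP e χ) where
  mem c := sum_mem fun l _ => he.mem l
  proj c := by
    refine ⟨?_, ?_⟩
    · have h1 := Paving_mul he (Finset.univ.filter fun l => χ l = c)
        (Finset.univ.filter fun l => χ l = c)
      rw [Finset.inter_self] at h1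
      exact h1
    · unfold colP IsSelfAdjoint
      rw [star_sum]
      exact Finset.sum_congr rfl fun l _ => (he.proj l).isSelfAdjoint
  orth c d hcd := by
    have h1 := Paving_mul he (Finset.univ.filter fun l => χ l = c)
      (Finset.univ.filter fun l => χ l = d)
    have h2 : (Finset.univ.filter fun l => χ l = c) ∩ (Finset.univ.filter fun l => χ l = d) = ∅ := by
      ext l
      simp only [Finset.mem_inter, Finset.mem_filter, Finset.mem_univ, true_and,
        Finset.notMem_empty, iff_false, not_and]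
      rintro rfl h3
      exact hcd h3
    rw [h2, Finset.sum_empty] at h1
    exact h1
  sum := by
    unfold colP
    rw [Finset.sum_fiberwise]
    exact he.sum

/-- the defect operator -/
noncomputable def defect {r n : ℕ} (e : Fin n → H →L[ℂ] H) (χ : Fin n → Fin r)
    (x : H →L[ℂ] H) : H →L[ℂ] H :=
  ∑ c, colP e χ c * x * colP e χ c - (1 - 1 / (r : ℂ)) • ∑ l, e l * x * e l - (1 / (r : ℂ)) • x

theorem inner_defect {r n : ℕ} {e : Fin n → H →L[ℂ] H} (he : IsPartition A e)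
    (χ : Fin n → Fin r) (x : H →L[ℂ] H) (v v' : H) :
    ⟪v', defect e χ x v⟫_ℂ = colS r χ (fun l m => ⟪v', (e l * x * e m) v⟫_ℂ) := by
  have h1 : ∑ c, colP e χ c * x * colP e χ c =
      ∑ l, ∑ m, (if χ l = χ m then (1 : ℂ) else 0) • (e l * x * e m) := by
    have a1 : ∀ c, colP e χ c * x * colP e χ c =
        ∑ l, ∑ m, (if χ l = c then (if χ m = c then e l * x * e m else 0) else 0) := by
      intro c
      unfold colP
      rw [Finset.sum_mul, Finset.sum_mul, Finset.sum_filter]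
      refine Finset.sum_congr rfl fun l _ => ?_
      by_cases hl : χ l = c
      · simp only [if_pos hl]
        rw [Finset.mul_sum, Finset.sum_filter]
      · simp only [if_neg hl, Finset.sum_const_zero]
    rw [Finset.sum_congr rfl fun c _ => a1 c, Finset.sum_comm]
    refine Finset.sum_congr rfl fun l _ => ?_
    rw [Finset.sum_comm]
    refine Finset.sum_congr rfl fun m _ => ?_
    rw [Finset.sum_ite_eq Finset.univ (χ l), if_pos (Finset.mem_univ _)]
    by_cases hlm : χ m = χ l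
    · rw [if_pos hlm, if_pos hlm.symm, one_smul]
    · rw [if_neg hlm, if_neg fun h => hlm h.symm, zero_smul]
  have h2 : x = ∑ l, ∑ m, e l * x * e m := by
    calc x = 1 * x * 1 := by rw [one_mul, mul_one]
      _ = (∑ l, e l) * x * (∑ m, e m) := by rw [he.sum]
      _ = _ := by
        rw [Finset.sum_mul, Finset.sum_mul]
        exact Finset.sum_congr rfl fun l _ => Finset.mul_sum _ _ _
  have h3 : ∑ l, e l * x * e l = ∑ l, ∑ m, (if l = m then (1 : ℂ) else 0) • (e l * x * e m) := by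
    refine Finset.sum_congr rfl fun l _ => ?_
    rw [Finset.sum_eq_single l]
    · rw [if_pos rfl, one_smul]
    · intro m _ hm
      rw [if_neg (Ne.symm hm), zero_smul]
    · intro h
      exact absurd (Finset.mem_univ _) h
  have h4 : defect e χ x = ∑ l, ∑ m,
      (if l = m then 0 else ((if χ l = χ m then 1 else 0) - 1 / (r : ℂ))) • (e l * x * e m) := by
    unfold defect
    rw [h1, h3]
    conv_lhs =>
      rhs
      rw [h2]
    rw [Finset.smul_sum, Finset.smul_sum, ← Finset.sum_sub_distrib, ← Finset.sum_sub_distrib]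
    refine Finset.sum_congr rfl fun l _ => ?_
    rw [Finset.smul_sum, Finset.smul_sum, ← Finset.sum_sub_distrib, ← Finset.sum_sub_distrib]
    refine Finset.sum_congr rfl fun m _ => ?_
    rw [smul_smul, ← sub_smul, ← sub_smul]
    congr 1
    by_cases hlm : l = m
    · subst hlm
      simp only [if_true]
      ring
    · simp only [if_neg hlm, mul_zero, sub_zero]
  rw [h4]
  unfold colS
  rw [_root_.sum_apply, inner_sum]
  refine Finset.sum_congr rfl fun l _ => ?_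
  rw [_root_.sum_apply, inner_sum]
  refine Finset.sum_congr rfl fun m _ => ?_
  rw [_root_.smul_apply, inner_smul_right]

private theorem Paving_inner {e : H →L[ℂ] H} (he : IsStarProjection e) (v y : H) :
    ⟪v, e y⟫_ℂ = ⟪e v, e y⟫_ℂ := by
  have h1 : e (e y) = e y := by
    have := congrArg (fun f : H →L[ℂ] H => f y) he.isIdempotentElem
    exact this
  have h2 := (ContinuousLinearMap.isSelfAdjoint_iff_isSymmetric.1 he.isSelfAdjoint) v (e y)
  have h3 : ⟪e v, e y⟫_ℂ = ⟪v, e (e y)⟫_ℂ := h2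
  rw [h3, h1]

private theorem Paving_pyth {n : ℕ} {e : Fin n → H →L[ℂ] H} (he : IsPartition A e) (y : H) :
    ∑ l, ‖e l y‖ ^ 2 = ‖y‖ ^ 2 := by
  have h1 : (∑ l, e l y) = y := by
    have h := congrArg (fun f : H →L[ℂ] H => f y) he.sum
    simp only [_root_.sum_apply] at h
    exact h
  have h2 : ⟪y, y⟫_ℂ = ∑ l, ⟪e l y, e l y⟫_ℂ := by
    calc ⟪y, y⟫_ℂ = ⟪y, ∑ l, e l y⟫_ℂ := by rw [h1]
      _ = ∑ l, ⟪y, e l y⟫_ℂ := by rw [inner_sum]
      _ = _ := Finset.sum_congr rfl fun l _ => Paving_inner (he.proj l) y y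
  have h3 : ((‖y‖ ^ 2 : ℝ) : ℂ) = ((∑ l, ‖e l y‖ ^ 2 : ℝ) : ℂ) := by
    push_cast
    rw [inner_self_eq_norm_sq_to_K] at h2
    simp only [inner_self_eq_norm_sq_to_K] at h2
    exact h2
  exact (Complex.ofReal_injective h3).symm

private theorem Paving_bound {n : ℕ} {e : Fin n → H →L[ℂ] H} (he : IsPartition A e)
    (x : H →L[ℂ] H) (v v' : H) {η : ℝ} (hη : ∀ l, ‖e l v'‖ ^ 2 ≤ η) :
    ∑ l, ∑ m, ‖⟪v', (e l * x * e m) v⟫_ℂ‖ ^ 2 ≤ η * (‖x‖ ^ 2 * ‖v‖ ^ 2) := by
  rw [Finset.sum_comm]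
  have a1 : ∀ m : Fin n, ∑ l, ‖⟪v', (e l * x * e m) v⟫_ℂ‖ ^ 2 ≤
      η * (‖x‖ ^ 2 * ‖e m v‖ ^ 2) := by
    intro m
    have a2 : ∀ l : Fin n, ‖⟪v', (e l * x * e m) v⟫_ℂ‖ ^ 2 ≤
        η * ‖e l (x (e m v))‖ ^ 2 := by
      intro l
      have a3 : (e l * x * e m) v = e l (x (e m v)) := rfl
      rw [a3, Paving_inner (he.proj l)]
      have a4 := norm_inner_le_norm (𝕜 := ℂ) (e l v') (e l (x (e m v)))
      have a5 := pow_le_pow_left₀ (norm_nonneg _) a4 2
      refine a5.trans ?_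
      rw [mul_pow]
      exact mul_le_mul_of_nonneg_right (hη _) (sq_nonneg _)
    refine (Finset.sum_le_sum fun l _ => a2 l).trans ?_
    rw [← Finset.mul_sum, Paving_pyth he]
    have hη0 : 0 ≤ η := (sq_nonneg _).trans (hη m)
    refine mul_le_mul_of_nonneg_left ?_ hη0
    rw [← mul_pow]
    exact pow_le_pow_left₀ (norm_nonneg _) (x.le_opNorm _) 2
  refine (Finset.sum_le_sum fun m _ => a1 m).trans ?_
  rw [← Finset.mul_sum, ← Finset.mul_sum, Paving_pyth he]

theorem exists_good_color {r n : ℕ} (hr : 1 ≤ r) {e : Fin n → H →L[ℂ] H}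
    (he : IsPartition A e) (x : H →L[ℂ] H) {ι : Type} [Fintype ι] (v : ι → H) {η : ℝ}
    (hη : ∀ k l, ‖e l (v k)‖ ^ 2 ≤ η) :
    ∃ χ : Fin n → Fin r, ∀ k k', ‖⟪v k', defect e χ x (v k)⟫_ℂ‖ ^ 2 ≤
      2 * (Fintype.card ι) * (∑ k, ‖v k‖ ^ 2) * ‖x‖ ^ 2 * η := by
  obtain ⟨W, hW⟩ : ∃ W : ι × ι → Fin n → Fin n → ℂ,
      ∀ q l m, W q l m = ⟪v q.2, (e l * x * e m) (v q.1)⟫_ℂ := ⟨_, fun _ _ _ => rfl⟩
  obtain ⟨χ, hχ⟩ := exists_color hr W
  refine ⟨χ, fun k k' => ?_⟩
  have h0 : ⟪v k', defect e χ x (v k)⟫_ℂ = colS r χ (W (k, k')) := by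
    rw [inner_defect he]
    congr 1
    funext l m
    rw [hW]
  have h1 : ‖colS r χ (W (k, k'))‖ ^ 2 ≤ ∑ q : ι × ι, ‖colS r χ (W q)‖ ^ 2 :=
    Finset.single_le_sum (f := fun q : ι × ι => ‖colS r χ (W q)‖ ^ 2)
      (fun q _ => sq_nonneg _) (Finset.mem_univ (k, k'))
  rw [h0]
  refine h1.trans (hχ.trans ?_)
  have h2 : ∀ q : ι × ι, ∑ l, ∑ m, ‖W q l m‖ ^ 2 ≤ η * (‖x‖ ^ 2 * ‖v q.1‖ ^ 2) := by
    intro q
    simp only [hW]
    exact Paving_bound he x (v q.1) (v q.2) (hη q.2)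
  have h3 : ∑ q : ι × ι, ∑ l, ∑ m, ‖W q l m‖ ^ 2 ≤
      ∑ q : ι × ι, η * (‖x‖ ^ 2 * ‖v q.1‖ ^ 2) := Finset.sum_le_sum fun q _ => h2 q
  have h4 : ∑ q : ι × ι, η * (‖x‖ ^ 2 * ‖v q.1‖ ^ 2) =
      (Fintype.card ι : ℝ) * (∑ k, ‖v k‖ ^ 2) * ‖x‖ ^ 2 * η := by
    rw [Fintype.sum_prod_type]
    simp only [Finset.sum_const, Finset.card_univ, nsmul_eq_mul, ← Finset.mul_sum]
    ring
  rw [h4] at h3
  linarith

end Vale.Agent.P078
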