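import Vale.Agent.Lib.P078S.Masa

/-!
# P078S Spectral: self-adjoint elements of `A` are norm limits of step operators

Choose `N` with `‖a‖ / N ≤ η/2`-ish and `λ_i = -‖a‖ - 1 + i η'`, `i = 0..n`, `λ_n > ‖a‖`.  Let
`b_i = cfc (fun t => max (t - λ_i) 0) a ∈ A` (`cfc_mem`), `K_i = closure (range b_i)`, `E_i` the
orthogonal projection onto `K_i`; `E_i ∈ A` by `proj_mem` (`K_i` is `A`-invariant as `A` is
commutative), `E_0 = 1` (`b_0 ≥ 1` is invertible), `E_n = 0` (`b_n = 0`), decreasing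
(`b_{i+1} = b_i * g` with ... or: `ker b_i ⊆ ker b_{i+1}`, since `b_{i+1} = c b_i` for a bounded
function; alternatively use kernels: `ker b_i` and `E_i = 1 - proj (ker b_i)`).
`p_i = E_{i-1} - E_i`.  For `ζ` in the range of `p_i`: `b_i ζ = 0` and, with
`c = cfc (fun t => max (λ_{i-1} - t) 0) a`, `c ζ = 0` (as `c b_{i-1} = 0`).  Since
`t - λ_i = max (t - λ_i) 0 - max (λ_i - t) 0` and
`max (λ_i - t) 0 = min (max (λ_i - t) 0) η' + max (λ_{i-1} - t) 0` (`λ_i - λ_{i-1} = η'`), we get
`(a - λ_i) ζ = - (cfc (fun t => min (max (λ_i - t) 0) η') a) ζ`, of norm `≤ η' ‖ζ‖`.  Then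
`‖a ζ - ∑ λ_i p_i ζ‖² = ∑ ‖(a - λ_i) p_i ζ‖² ≤ η'² ‖ζ‖²`.
-/

namespace Vale.Agent.P078

universe u

variable {H : Type u} [NormedAddCommGroup H] [InnerProductSpace ℂ H] [CompleteSpace H]
  {A : StarSubalgebra ℂ (H →L[ℂ] H)}

/-- the projection onto the kernel of an element of `A` -/
private theorem Spectral_ker (h : MA A) {b : H →L[ℂ] H} (hb : b ∈ A) :
    ∃ F ∈ A, IsStarProjection F ∧ ∀ x, b x = 0 ↔ F x = x := by
  have hcl : IsClosed (LinearMap.ker (b : H →ₗ[ℂ] H) : Set H) :=
    isClosed_singleton.preimage b.continuous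
  have hcomp : CompleteSpace (LinearMap.ker (b : H →ₗ[ℂ] H)) := hcl.completeSpace_coe
  refine ⟨(LinearMap.ker (b : H →ₗ[ℂ] H)).starProjection, proj_mem h _ ?_,
    isStarProjection_starProjection, fun x => ?_⟩
  · intro c hc v hv
    rw [LinearMap.mem_ker] at hv ⊢
    have h1 : b * c = c * b := h.comm b hb c hc
    have h2 := congrArg (fun f : H →L[ℂ] H => f v) h1
    have h3 : b (c v) = c (b v) := h2
    have hv' : b v = 0 := hv
    change b (c v) = 0
    rw [h3, hv', map_zero]
  · rw [Submodule.starProjection_eq_self_iff, LinearMap.mem_ker]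
    rfl

section cfcfacts

variable {a : H →L[ℂ] H}

private theorem Spectral_abs {t : ℝ} (ht : t ∈ spectrum ℝ a) : |t| ≤ ‖a‖ := by
  have h1 := spectrum.norm_le_norm_mul_of_mem ht
  rw [Real.norm_eq_abs] at h1
  have h2 : ‖(1 : H →L[ℂ] H)‖ ≤ 1 := ContinuousLinearMap.norm_id_le
  calc |t| ≤ ‖a‖ * ‖(1 : H →L[ℂ] H)‖ := h1
    _ ≤ ‖a‖ * 1 := mul_le_mul_of_nonneg_left h2 (norm_nonneg _)
    _ = ‖a‖ := mul_one _

private theorem Spectral_split (hsa : IsSelfAdjoint a) (lam : ℝ) :
    a - algebraMap ℝ (H →L[ℂ] H) lam = cfc (fun t : ℝ => max (t - lam) 0) a -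
      cfc (fun t : ℝ => max (lam - t) 0) a := by
  rw [← cfc_sub (fun t : ℝ => max (t - lam) 0) (fun t : ℝ => max (lam - t) 0) a
    (by fun_prop) (by fun_prop)]
  have h1 : (fun t : ℝ => max (t - lam) 0 - max (lam - t) 0) = fun t => t - lam := by
    funext t
    rcases le_total t lam with h | h
    · rw [max_eq_right (by linarith), max_eq_left (by linarith)]
      ring
    · rw [max_eq_left (by linarith), max_eq_right (by linarith)]
      ring
  rw [h1, cfc_sub (fun t : ℝ => t) (fun _ : ℝ => lam) a (by fun_prop) (by fun_prop),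
    cfc_id' ℝ a hsa, cfc_const lam a hsa]

private theorem Spectral_C {η lam : ℝ} (hη : 0 < η) :
    cfc (fun t : ℝ => max (lam + η - t) 0) a =
      cfc (fun t : ℝ => min (max (lam + η - t) 0) η) a + cfc (fun t : ℝ => max (lam - t) 0) a := by
  rw [← cfc_add a (fun t : ℝ => min (max (lam + η - t) 0) η) (fun t : ℝ => max (lam - t) 0)
    (by fun_prop) (by fun_prop)]
  congr 1
  funext t
  rcases le_total t lam with h | h
  · rw [max_eq_left (by linarith), min_eq_right (by linarith), max_eq_left (by linarith)]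
    ring
  · rw [max_eq_right (by linarith : lam - t ≤ 0), add_zero]
    rcases le_total t (lam + η) with h' | h'
    · rw [max_eq_left (by linarith), min_eq_left (by linarith)]
    · rw [max_eq_right (by linarith), min_eq_left hη.le]

private theorem Spectral_BC (lam : ℝ) :
    cfc (fun t : ℝ => max (t - lam) 0) a * cfc (fun t : ℝ => max (lam - t) 0) a = 0 := by
  rw [← cfc_mul (fun t : ℝ => max (t - lam) 0) (fun t : ℝ => max (lam - t) 0) a
    (by fun_prop) (by fun_prop)]
  have h1 : (fun t : ℝ => max (t - lam) 0 * max (lam - t) 0) = fun _ => (0 : ℝ) := by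
    funext t
    rcases le_total t lam with h | h
    · rw [max_eq_right (by linarith), zero_mul]
    · rw [max_eq_right (by linarith : lam - t ≤ 0), mul_zero]
  rw [h1, cfc_const_zero]

private theorem Spectral_fac {lam lam' : ℝ} (hl : lam < lam') :
    ∃ g : H →L[ℂ] H, cfc (fun t : ℝ => max (t - lam') 0) a =
      g * cfc (fun t : ℝ => max (t - lam) 0) a := by
  have hpos : ∀ t : ℝ, max (t - lam) (lam' - lam) ≠ 0 := fun t =>
    (lt_of_lt_of_le (by linarith) (le_max_right _ _)).ne'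
  have hc : Continuous fun t : ℝ => max (t - lam') 0 / max (t - lam) (lam' - lam) :=
    Continuous.div (by fun_prop) (by fun_prop) hpos
  refine ⟨cfc (fun t : ℝ => max (t - lam') 0 / max (t - lam) (lam' - lam)) a, ?_⟩
  rw [← cfc_mul (fun t : ℝ => max (t - lam') 0 / max (t - lam) (lam' - lam))
    (fun t : ℝ => max (t - lam) 0) a hc.continuousOn (by fun_prop)]
  congr 1
  funext t
  rcases le_total t lam' with h | h
  · rw [max_eq_right (by linarith : t - lam' ≤ 0), zero_div, zero_mul]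
  · rw [max_eq_left (by linarith : lam' - lam ≤ t - lam), max_eq_left (by linarith : 0 ≤ t - lam),
      div_mul_cancel₀ _ (by linarith : t - lam ≠ 0)]

private theorem Spectral_top {lam : ℝ} (hl : ‖a‖ ≤ lam) :
    cfc (fun t : ℝ => max (t - lam) 0) a = 0 := by
  have h1 : cfc (fun t : ℝ => max (t - lam) 0) a = cfc (fun _ : ℝ => (0 : ℝ)) a := by
    refine cfc_congr fun t ht => ?_
    have h2 := (abs_le.1 (Spectral_abs ht)).2
    exact max_eq_right (by linarith)
  rw [h1, cfc_const_zero]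

private theorem Spectral_bot {lam : ℝ} (hl : lam ≤ -‖a‖) :
    cfc (fun t : ℝ => max (lam - t) 0) a = 0 := by
  have h1 : cfc (fun t : ℝ => max (lam - t) 0) a = cfc (fun _ : ℝ => (0 : ℝ)) a := by
    refine cfc_congr fun t ht => ?_
    have h2 := (abs_le.1 (Spectral_abs ht)).1
    exact max_eq_right (by linarith)
  rw [h1, cfc_const_zero]

end cfcfacts

/-- the final estimate -/
private theorem Spectral_norm {n : ℕ} {p d : Fin n → H →L[ℂ] H} (hp : ∀ i, IsStarProjection (p i))
    (hsum : ∑ i, p i = 1) {η : ℝ} (hη : 0 ≤ η) (hd0 : ∀ i, 0 ≤ d i)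
    (hd1 : ∀ i, d i ≤ algebraMap ℝ (H →L[ℂ] H) η) :
    ‖∑ i, p i * d i * p i‖ ≤ η := by
  have h0 : 0 ≤ ∑ i, p i * d i * p i := by
    refine Finset.sum_nonneg fun i _ => ?_
    have h1 := star_left_conjugate_nonneg (hd0 i) (p i)
    rwa [(hp i).isSelfAdjoint.star_eq] at h1
  refine (CStarAlgebra.norm_le_iff_le_algebraMap _ hη h0).2 ?_
  have h1 : algebraMap ℝ (H →L[ℂ] H) η = ∑ i, p i * algebraMap ℝ (H →L[ℂ] H) η * p i := by
    have h2 : ∀ i, p i * algebraMap ℝ (H →L[ℂ] H) η * p i = algebraMap ℝ (H →L[ℂ] H) η * p i := by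
      intro i
      rw [← Algebra.commutes η (p i), mul_assoc, (hp i).isIdempotentElem]
    rw [Finset.sum_congr rfl fun i _ => h2 i, ← Finset.mul_sum, hsum, mul_one]
  rw [h1]
  refine Finset.sum_le_sum fun i _ => ?_
  have h2 := star_left_conjugate_le_conjugate (hd1 i) (p i)
  rwa [(hp i).isSelfAdjoint.star_eq] at h2

theorem exists_step_approx (h : MA A) {a : H →L[ℂ] H} (ha : a ∈ A) (hsa : IsSelfAdjoint a)
    {η : ℝ} (hη : 0 < η) :
    ∃ (n : ℕ) (p : Fin n → H →L[ℂ] H) (lam : Fin n → ℝ), IsPartition A p ∧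
      ‖a - ∑ i, (lam i : ℂ) • p i‖ ≤ η := by
  -- levels
  obtain ⟨l, hl⟩ : ∃ l : ℕ → ℝ, l = fun i : ℕ => -(‖a‖ + 1) + (i : ℝ) * η := ⟨_, rfl⟩
  have hl0 : l 0 = -(‖a‖ + 1) := by
    rw [hl]
    simp
  have hls : ∀ i, l (i + 1) = l i + η := by
    intro i
    rw [hl]
    push_cast
    ring
  have hlt : ∀ {i j : ℕ}, i < j → l i < l j := by
    intro i j hij
    rw [hl]
    have : (i : ℝ) < j := by exact_mod_cast hij
    have := mul_lt_mul_of_pos_right this hη
    simpa using this
  obtain ⟨n, hn⟩ : ∃ n : ℕ, ‖a‖ ≤ l n := by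
    obtain ⟨n, hn⟩ := exists_nat_gt ((2 * ‖a‖ + 1) / η)
    refine ⟨n, ?_⟩
    rw [div_lt_iff₀ hη] at hn
    rw [hl]
    beta_reduce
    linarith
  -- the operators
  obtain ⟨b, hb⟩ : ∃ b : ℕ → H →L[ℂ] H, b = fun i => cfc (fun t : ℝ => max (t - l i) 0) a :=
    ⟨_, rfl⟩
  obtain ⟨c, hc⟩ : ∃ c : ℕ → H →L[ℂ] H, c = fun i => cfc (fun t : ℝ => max (l i - t) 0) a :=
    ⟨_, rfl⟩
  obtain ⟨d, hd⟩ : ∃ d : ℕ → H →L[ℂ] H,
      d = fun i => cfc (fun t : ℝ => min (max (l i + η - t) 0) η) a := ⟨_, rfl⟩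
  have hbA : ∀ i, b i ∈ A := fun i => by
    rw [hb]
    exact cfc_mem h ha _
  have hdA : ∀ i, d i ∈ A := fun i => by
    rw [hd]
    exact cfc_mem h ha _
  have hcs : ∀ i, star (c i) = c i := fun i => by
    rw [hc]
    exact (cfc_predicate (fun t : ℝ => max (l i - t) 0) a).star_eq
  have hsplit : ∀ i, a - algebraMap ℝ (H →L[ℂ] H) (l i) = b i - c i := fun i => by
    rw [hb, hc]
    exact Spectral_split hsa (l i)
  have hcd : ∀ i, c (i + 1) = d i + c i := fun i => by
    rw [hc, hd]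
    beta_reduce
    rw [hls]
    exact Spectral_C hη
  have hbc : ∀ i, b i * c i = 0 := fun i => by
    rw [hb, hc]
    exact Spectral_BC (l i)
  have hfac : ∀ {i j : ℕ}, i < j → ∃ g, b j = g * b i := fun hij => by
    rw [hb]
    exact Spectral_fac (hlt hij)
  -- projections
  choose R hRA hRp hR using fun i => Spectral_ker h (hbA i)
  have hbR : ∀ i, b i * R i = 0 := by
    intro i
    ext x
    change b i (R i x) = 0
    rw [hR]
    exact congrArg (fun f : H →L[ℂ] H => f x) (hRp i).isIdempotentElem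
  have hRx : ∀ i (y : H →L[ℂ] H), b i * y = 0 → R i * y = y := by
    intro i y hy
    ext x
    change R i (y x) = y x
    rw [← hR]
    exact congrArg (fun f : H →L[ℂ] H => f x) hy
  have hmono : ∀ i j, i ≤ j → R j * R i = R i := by
    intro i j hij
    rcases hij.eq_or_lt with rfl | hij
    · exact (hRp i).isIdempotentElem
    · obtain ⟨g, hg⟩ := hfac hij
      apply hRx
      rw [hg, mul_assoc, hbR, mul_zero]
  have hmono' : ∀ i j, i ≤ j → R i * R j = R i := by
    intro i j hij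
    rw [h.comm _ (hRA i) _ (hRA j)]
    exact hmono i j hij
  have hR0 : R 0 = 0 := by
    ext x
    have h1 : b 0 (R 0 x) = 0 := congrArg (fun f : H →L[ℂ] H => f x) (hbR 0)
    have h2 : c 0 = 0 := by
      rw [hc]
      exact Spectral_bot (by rw [hl0]; linarith)
    have h3 := hsplit 0
    rw [h2, sub_zero] at h3
    have h4 : a (R 0 x) = (l 0) • R 0 x := by
      have h5 := congrArg (fun f : H →L[ℂ] H => f (R 0 x)) h3
      rw [Algebra.algebraMap_eq_smul_one] at h5
      have h6 : a (R 0 x) - (l 0) • R 0 x = b 0 (R 0 x) := h5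
      rw [h1] at h6
      exact sub_eq_zero.1 h6
    have h5 := a.le_opNorm (R 0 x)
    rw [h4, norm_smul, hl0, norm_neg, Real.norm_of_nonneg (by positivity)] at h5
    have h6 : ‖R 0 x‖ ≤ 0 := by nlinarith [norm_nonneg (R 0 x)]
    exact norm_le_zero_iff.1 h6
  have hRn : R n = 1 := by
    ext x
    change R n x = x
    rw [← hR]
    have h1 : b n = 0 := by
      rw [hb]
      exact Spectral_top hn
    rw [h1]
    rfl
  have hcR : ∀ i, c i * R i = c i := by
    intro i
    have h1 := congrArg star (hRx i (c i) (hbc i))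
    rwa [star_mul, hcs, (hRp i).isSelfAdjoint.star_eq] at h1
  -- the partition
  obtain ⟨P, hP⟩ : ∃ P : ℕ → H →L[ℂ] H, P = fun i => R (i + 1) - R i := ⟨_, rfl⟩
  have hPA : ∀ i, P i ∈ A := fun i => by
    rw [hP]
    exact sub_mem (hRA _) (hRA _)
  have hPp : ∀ i, IsStarProjection (P i) := by
    intro i
    rw [hP]
    refine ⟨?_, ?_⟩
    · change (R (i + 1) - R i) * (R (i + 1) - R i) = R (i + 1) - R i
      rw [mul_sub, sub_mul, sub_mul, hmono (i + 1) (i + 1) le_rfl, hmono i (i + 1) (Nat.le_succ i),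
        hmono' i (i + 1) (Nat.le_succ i), hmono i i le_rfl, sub_self, sub_zero]
    · exact (hRp (i + 1)).isSelfAdjoint.sub (hRp i).isSelfAdjoint
  have hlt0 : ∀ i j, i < j → P i * P j = 0 := by
    intro i j hij
    rw [hP]
    beta_reduce
    rw [mul_sub, sub_mul, sub_mul, hmono' (i + 1) (j + 1) (by omega), hmono' i (j + 1) (by omega),
      hmono' (i + 1) j (by omega), hmono' i j (by omega), sub_self]
  have horth : ∀ i j, i ≠ j → P i * P j = 0 := by
    intro i j hij
    rcases lt_or_gt_of_ne hij with h1 | h1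
    · exact hlt0 i j h1
    · rw [h.comm _ (hPA i) _ (hPA j)]
      exact hlt0 j i h1
  have hsum : ∑ i : Fin n, P i = 1 := by
    rw [Fin.sum_univ_eq_sum_range P n, hP, Finset.sum_range_sub, hR0, hRn, sub_zero]
  have hkey : ∀ i, (a - algebraMap ℝ (H →L[ℂ] H) (l (i + 1))) * P i = -(P i * d i * P i) := by
    intro i
    have h1 : b (i + 1) * P i = 0 := by
      obtain ⟨g, hg⟩ := hfac (Nat.lt_succ_self i)
      rw [hP]
      beta_reduce
      rw [mul_sub, hbR, zero_sub, neg_eq_zero, hg, mul_assoc, hbR, mul_zero]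
    have h2 : c i * P i = 0 := by
      rw [hP]
      beta_reduce
      have h3 : c i * R (i + 1) = c i := by
        calc c i * R (i + 1) = c i * R i * R (i + 1) := by rw [hcR]
          _ = c i * R i := by rw [mul_assoc, hmono' i (i + 1) (Nat.le_succ i)]
          _ = c i := hcR i
      rw [mul_sub, h3, hcR, sub_self]
    have h3 : P i * d i * P i = d i * P i := by
      rw [h.comm _ (hPA i) _ (hdA i), mul_assoc]
      congr 1
      exact (hPp i).isIdempotentElem
    rw [hsplit, sub_mul, h1, hcd, add_mul, h2, add_zero, zero_sub, h3]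
  refine ⟨n, fun i => P i, fun i => l (i + 1), ⟨fun i => hPA i, fun i => hPp i,
    fun i j hij => horth i j (fun h => hij (Fin.ext h)), hsum⟩, ?_⟩
  have hfin : a - ∑ i : Fin n, ((l (i + 1) : ℝ) : ℂ) • P i =
      -(∑ i : Fin n, P i * d i * P i) := by
    have h1 : a = ∑ i : Fin n, a * P i := by rw [← Finset.mul_sum, hsum, mul_one]
    rw [← Finset.sum_neg_distrib, ← Finset.sum_congr rfl fun (i : Fin n) _ => hkey i]
    conv_lhs => rw [h1]
    rw [← Finset.sum_sub_distrib]
    refine Finset.sum_congr rfl fun i _ => ?_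
    rw [sub_mul, Algebra.algebraMap_eq_smul_one, smul_mul_assoc, one_mul, Complex.coe_smul]
  rw [hfin, norm_neg]
  refine Spectral_norm (fun i => hPp i) hsum hη.le (fun i => ?_) (fun i => ?_)
  · rw [hd]
    exact cfc_nonneg fun t _ => le_min (le_max_right _ _) hη.le
  · rw [hd]
    exact cfc_le_algebraMap _ _ _ fun t _ => min_le_right _ _

end Vale.Agent.P078
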