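import Vale.Agent.Lib.P078S.Cyclic
import Vale.Agent.Lib.P078S.Fine
import Vale.Agent.Lib.P078S.Paving

/-!
# P078S Upper: `(ε, r)` so-pavability for `r > 1/ε`
-/

namespace Vale.Agent.P078

open Finset
open scoped InnerProductSpace

universe u

variable {H : Type u} [NormedAddCommGroup H] [InnerProductSpace ℂ H] [CompleteSpace H]
  {A : StarSubalgebra ℂ (H →L[ℂ] H)}

theorem Upper_sa {T : H →L[ℂ] H} (hT : IsSelfAdjoint T) (v w : H) : ⟪T v, w⟫_ℂ = ⟪v, T w⟫_ℂ :=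
  hT.isSymmetric v w

theorem Upper_idem {p : H →L[ℂ] H} (hp : IsStarProjection p) (v : H) : p (p v) = p v := by
  have h := hp.isIdempotentElem
  exact congrArg (fun T : H →L[ℂ] H => T v) h

/-- Pythagoras for a partition -/
theorem Upper_norm_sq {n : ℕ} {p : Fin n → H →L[ℂ] H} (hp : IsPartition A p) (ξ : H) :
    ∑ i, ‖p i ξ‖ ^ 2 = ‖ξ‖ ^ 2 := by
  have h1 : ∀ i, (‖p i ξ‖ ^ 2 : ℝ) = (⟪ξ, p i ξ⟫_ℂ).re := by
    intro i
    have h2 : ⟪p i ξ, p i ξ⟫_ℂ = ⟪ξ, p i ξ⟫_ℂ := by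
      rw [Upper_sa (hp.proj i).isSelfAdjoint, Upper_idem (hp.proj i)]
    rw [← h2]
    exact (inner_self_eq_norm_sq (𝕜 := ℂ) (p i ξ)).symm
  simp_rw [h1]
  rw [← Complex.re_sum, ← inner_sum]
  have h3 : ∑ i, p i ξ = ξ := by
    have h4 := congrArg (fun T : H →L[ℂ] H => T ξ) hp.sum
    simpa using h4
  rw [h3]
  exact inner_self_eq_norm_sq (𝕜 := ℂ) ξ

theorem Upper_apply_diag {n : ℕ} {p : Fin n → H →L[ℂ] H} (hp : IsPartition A p)
    (α : Fin n → ℂ) (j : Fin n) (ξ : H) :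
    p j ((∑ i, α i • p i) ξ) = α j • p j ξ := by
  rw [_root_.sum_apply, map_sum, Finset.sum_eq_single j]
  · rw [smul_apply, map_smul, Upper_idem (hp.proj j)]
  · intro i _ hij
    have h : p j (p i ξ) = 0 :=
      congrArg (fun T : H →L[ℂ] H => T ξ) (hp.orth j i (Ne.symm hij))
    rw [smul_apply, map_smul, h, smul_zero]
  · intro h
    exact absurd (Finset.mem_univ j) h

/-- norm of a diagonal operator -/
theorem Upper_diag_norm {n : ℕ} {p : Fin n → H →L[ℂ] H} (hp : IsPartition A p)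
    (α : Fin n → ℝ) {X : ℝ} (hX : 0 ≤ X) (hα : ∀ i, |α i| ≤ X) :
    ‖∑ i, (α i : ℂ) • p i‖ ≤ X := by
  refine ContinuousLinearMap.opNorm_le_bound _ hX fun ξ => ?_
  have h1 := Upper_norm_sq hp ((∑ i, (α i : ℂ) • p i) ξ)
  simp_rw [Upper_apply_diag hp] at h1
  have h2 : ∑ i, ‖(α i : ℂ) • p i ξ‖ ^ 2 ≤ X ^ 2 * ∑ i, ‖p i ξ‖ ^ 2 := by
    rw [Finset.mul_sum]
    refine Finset.sum_le_sum fun i _ => ?_
    rw [norm_smul, Complex.norm_real, mul_pow, Real.norm_eq_abs]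
    exact mul_le_mul_of_nonneg_right (pow_le_pow_left₀ (abs_nonneg _) (hα i) 2) (sq_nonneg _)
  rw [h1, Upper_norm_sq hp] at h2
  rw [← mul_pow] at h2
  exact le_of_sq_le_sq h2 (by positivity)

/-- compression of an operator with small matrix entries -/
theorem Upper_compress {V : Submodule ℂ H} [FiniteDimensional ℂ V] {ι : Type} [Fintype ι]
    (b : OrthonormalBasis ι ℂ V) (D : H →L[ℂ] H) {β : ℝ} (hβ : 0 ≤ β)
    (h : ∀ k k', ‖⟪(b k' : H), D (b k)⟫_ℂ‖ ≤ β) :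
    ‖V.starProjection * D * V.starProjection‖ ≤ (Fintype.card ι : ℝ) ^ 2 * β := by
  refine ContinuousLinearMap.opNorm_le_bound _ (by positivity) fun ξ => ?_
  have hq : ∀ w : H, V.starProjection w = ∑ k, ⟪(b k : H), w⟫_ℂ • (b k : H) := by
    intro w
    rw [b.starProjection_eq_sum_rankOne]
    simp
  have h1 : ∀ k, ‖(b k : H)‖ = 1 := fun k => b.orthonormal.1 k
  have h3 : (V.starProjection * D * V.starProjection) ξ =
      ∑ k', (∑ k, ⟪(b k : H), ξ⟫_ℂ * ⟪(b k' : H), D (b k)⟫_ℂ) • (b k' : H) := by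
    change V.starProjection (D (V.starProjection ξ)) = _
    rw [hq ξ, hq]
    refine Finset.sum_congr rfl fun k' _ => ?_
    congr 1
    rw [map_sum, inner_sum]
    refine Finset.sum_congr rfl fun k _ => ?_
    rw [map_smul, inner_smul_right]
  rw [h3]
  calc ‖∑ k', (∑ k, ⟪(b k : H), ξ⟫_ℂ * ⟪(b k' : H), D (b k)⟫_ℂ) • (b k' : H)‖
      ≤ ∑ _k' : ι, ∑ _k : ι, ‖ξ‖ * β := by
        refine norm_sum_le_of_le _ fun k' _ => ?_
        rw [norm_smul, h1, mul_one]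
        refine norm_sum_le_of_le _ fun k _ => ?_
        rw [norm_mul]
        refine mul_le_mul ?_ (h k k') (norm_nonneg _) (norm_nonneg _)
        have := norm_inner_le_norm (𝕜 := ℂ) (b k : H) ξ
        rwa [h1, one_mul] at this
    _ = _ := by
        rw [Finset.sum_const, Finset.sum_const, Finset.card_univ, nsmul_eq_mul, nsmul_eq_mul]
        ring

theorem Upper_proj_norm {p : H →L[ℂ] H} (hp : IsStarProjection p) (ξ : H) : ‖p ξ‖ ≤ ‖ξ‖ := by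
  have h1 := p.le_opNorm ξ
  have h2 := hp.norm_le
  calc ‖p ξ‖ ≤ ‖p‖ * ‖ξ‖ := h1
    _ ≤ 1 * ‖ξ‖ := mul_le_mul_of_nonneg_right h2 (norm_nonneg _)
    _ = ‖ξ‖ := one_mul _

theorem Upper_bd {n : ℕ} {e0 : Fin n → H →L[ℂ] H} (he0 : IsPartition A e0) (ζ v : H)
    (hv : v ∈ Submodule.span ℂ (Set.range fun i => e0 i ζ)) :
    ∃ C : ℝ, 0 ≤ C ∧ ∀ g : H →L[ℂ] H, (∀ l, g * e0 l = e0 l * g) → ‖g v‖ ≤ C * ‖g ζ‖ := by
  induction hv using Submodule.span_induction with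
  | mem w hw =>
    obtain ⟨i, rfl⟩ := hw
    refine ⟨1, zero_le_one, fun g hg => ?_⟩
    have h1 : g (e0 i ζ) = e0 i (g ζ) := congrArg (fun T : H →L[ℂ] H => T ζ) (hg i)
    simp only
    rw [h1, one_mul]
    exact Upper_proj_norm (he0.proj i) _
  | zero => exact ⟨0, le_rfl, fun g _ => by simp⟩
  | add x y _ _ hx hy =>
    obtain ⟨C1, hC1, h1⟩ := hx
    obtain ⟨C2, hC2, h2⟩ := hy
    refine ⟨C1 + C2, add_nonneg hC1 hC2, fun g hg => ?_⟩
    rw [map_add, add_mul]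
    exact (norm_add_le _ _).trans (add_le_add (h1 g hg) (h2 g hg))
  | smul a x _ hx =>
    obtain ⟨C1, hC1, h1⟩ := hx
    refine ⟨‖a‖ * C1, mul_nonneg (norm_nonneg _) hC1, fun g hg => ?_⟩
    rw [map_smul, norm_smul, mul_assoc]
    exact mul_le_mul_of_nonneg_left (h1 g hg) (norm_nonneg _)

theorem Upper_scal {n : ℕ} {e0 : Fin n → H →L[ℂ] H} (he0 : IsPartition A e0)
    {s : H →L[ℂ] H} {i : Fin n} (hs : s * e0 i = s) (ζ v : H)
    (hv : v ∈ Submodule.span ℂ (Set.range fun i => e0 i ζ)) :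
    ∃ c : ℂ, s v = c • s ζ := by
  induction hv using Submodule.span_induction with
  | mem w hw =>
    obtain ⟨l, rfl⟩ := hw
    simp only
    by_cases hl : l = i
    · subst hl
      refine ⟨1, ?_⟩
      rw [one_smul]
      exact congrArg (fun T : H →L[ℂ] H => T ζ) hs
    · refine ⟨0, ?_⟩
      rw [zero_smul]
      have h1 : s * e0 l = 0 := by
        rw [← hs, mul_assoc, he0.orth i l (Ne.symm hl), mul_zero]
      exact congrArg (fun T : H →L[ℂ] H => T ζ) h1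
  | zero => exact ⟨0, by simp⟩
  | add x y _ _ hx hy =>
    obtain ⟨c1, h1⟩ := hx
    obtain ⟨c2, h2⟩ := hy
    exact ⟨c1 + c2, by rw [map_add, h1, h2, add_smul]⟩
  | smul a x _ hx =>
    obtain ⟨c1, h1⟩ := hx
    exact ⟨a * c1, by rw [map_smul, h1, smul_smul]⟩

/-- on the step subspace the fine pinching is an element of `A` -/
theorem Upper_diag {n k : ℕ} {e0 : Fin n → H →L[ℂ] H} (he0 : IsPartition A e0)
    {s : Fin k → H →L[ℂ] H} (hs : IsPartition A s) (hsp : ∀ j, ∃ i, s j * e0 i = s j)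
    {x : H →L[ℂ] H} (hx : IsSelfAdjoint x) (ζ v v' : H)
    (hv : v ∈ Submodule.span ℂ (Set.range fun i => e0 i ζ))
    (hv' : v' ∈ Submodule.span ℂ (Set.range fun i => e0 i ζ)) :
    ⟪v', (∑ j, s j * x * s j - ∑ j, (((⟪s j ζ, x (s j ζ)⟫_ℂ).re / ‖s j ζ‖ ^ 2 : ℝ) : ℂ) • s j) v⟫_ℂ
      = 0 := by
  rw [sub_apply, _root_.sum_apply, _root_.sum_apply, ← Finset.sum_sub_distrib, inner_sum]
  refine Finset.sum_eq_zero fun j _ => ?_
  obtain ⟨i, hi⟩ := hsp j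
  obtain ⟨c, hc⟩ := Upper_scal he0 hi ζ v hv
  obtain ⟨c', hc'⟩ := Upper_scal he0 hi ζ v' hv'
  have hsa := (hs.proj j).isSelfAdjoint
  have h1 : ⟪v', (s j * x * s j) v⟫_ℂ = starRingEnd ℂ c' * c * ⟪s j ζ, x (s j ζ)⟫_ℂ := by
    change ⟪v', s j (x (s j v))⟫_ℂ = _
    rw [← Upper_sa hsa, hc, hc', map_smul, inner_smul_left, inner_smul_right]
    ring
  have h2 : ⟪v', s j v⟫_ℂ = starRingEnd ℂ c' * c * ((‖s j ζ‖ ^ 2 : ℝ) : ℂ) := by
    have h7 : ⟪s j ζ, s j ζ⟫_ℂ = ((‖s j ζ‖ ^ 2 : ℝ) : ℂ) := by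
      rw [inner_self_eq_norm_sq_to_K]
      push_cast
      rfl
    rw [← Upper_idem (hs.proj j) v, ← Upper_sa hsa, hc, hc', inner_smul_left, inner_smul_right,
      h7]
    ring
  have h3 : ⟪s j ζ, x (s j ζ)⟫_ℂ = (((⟪s j ζ, x (s j ζ)⟫_ℂ).re : ℝ) : ℂ) := by
    have h4 : starRingEnd ℂ ⟪s j ζ, x (s j ζ)⟫_ℂ = ⟪s j ζ, x (s j ζ)⟫_ℂ := by
      rw [inner_conj_symm, Upper_sa hx]
    exact (Complex.conj_eq_iff_re.1 h4).symm
  rw [inner_sub_right, h1, smul_apply, inner_smul_right, h2]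
  by_cases h0 : ‖s j ζ‖ = 0
  · have h5 : s j ζ = 0 := norm_eq_zero.1 h0
    rw [h5]
    simp
  · have h6 : ((‖s j ζ‖ : ℝ) : ℂ) ≠ 0 := by exact_mod_cast h0
    rw [h3]
    push_cast
    field_simp
    simp

theorem upper (h : MA A) (hd : Diffuse A) {x : H →L[ℂ] H} (hx : IsSelfAdjoint x) {ε : ℝ}
    (hε : 0 < ε) {r : ℕ} (hr : 1 / ε < r) : SoPavable (BH H) A x ε r := by
  intro F δ hδ
  have hrR : (0 : ℝ) < r := lt_trans (by positivity) hr
  have hr0 : 0 < r := by exact_mod_cast hrR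
  have hr1 : 1 ≤ r := hr0
  by_cases hx0 : x = 0
  · subst hx0
    refine ⟨fun i => if i = ⟨0, hr0⟩ then 1 else 0, 0, 1, ⟨?_, ?_, ?_, ?_⟩, A.zero_mem,
      IsSelfAdjoint.zero _, by simp, mem_BH _, IsStarProjection.one _, ?_, ?_⟩
    · intro i
      split_ifs
      · exact A.one_mem
      · exact A.zero_mem
    · intro i
      split_ifs
      · exact IsStarProjection.one _
      · exact IsStarProjection.zero _
    · intro i j hij
      by_cases hi : i = ⟨0, hr0⟩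
      · have hj : j ≠ ⟨0, hr0⟩ := fun hj => hij (hi.trans hj.symm)
        simp [hj]
      · simp [hi]
    · simp
    · intro ξ _
      simpa using hδ
    · simp
  have hX : 0 < ‖x‖ := norm_pos_iff.2 hx0
  have h1r : 1 / (r : ℝ) < ε := by
    rw [div_lt_iff₀ hrR]
    rw [div_lt_iff₀ hε] at hr
    linarith
  set κ : ℝ := (ε - 1 / r) * ‖x‖ with hκ
  have hκ0 : 0 < κ := mul_pos (by linarith) hX
  obtain ⟨ζ, n, e0, he0, happ⟩ := exists_part_cyclic h F hδ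
  set V : Submodule ℂ H := Submodule.span ℂ (Set.range fun i => e0 i ζ) with hV
  have : FiniteDimensional ℂ V := FiniteDimensional.span_of_finite ℂ (Set.finite_range _)
  let b := stdOrthonormalBasis ℂ V
  set d := Module.finrank ℂ V with hdd
  have hbd : ∀ k, ∃ C : ℝ, 0 ≤ C ∧ ∀ g : H →L[ℂ] H, (∀ l, g * e0 l = e0 l * g) →
      ‖g (b k : H)‖ ≤ C * ‖g ζ‖ := fun k => Upper_bd he0 ζ (b k) (b k).2
  choose C hC0 hC using hbd
  set Cs : ℝ := ∑ k, C k with hCs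
  have hCs0 : 0 ≤ Cs := Finset.sum_nonneg fun k _ => hC0 k
  have hCk : ∀ k, C k ≤ Cs := fun k =>
    Finset.single_le_sum (f := C) (fun i _ => hC0 i) (Finset.mem_univ k)
  set K : ℝ := 2 * (d : ℝ) * d * ‖x‖ ^ 2 * Cs ^ 2 with hK
  have hK0 : 0 ≤ K := by positivity
  set η₁ : ℝ := (κ / ((d : ℝ) ^ 2 + 1)) ^ 2 / (K + 1) with hη₁
  have hη₁0 : 0 < η₁ := by positivity
  obtain ⟨m, e1, he1, hfine⟩ := exists_fine h hd ζ hη₁0
  obtain ⟨k, s, hs, -, -, hsp, hsq⟩ := refine_two h.comm he0 he1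
  have hsζ : ∀ j, ‖s j ζ‖ ^ 2 ≤ η₁ := by
    intro j
    obtain ⟨i, hi⟩ := hsq j
    have h2 : s j ζ = s j (e1 i ζ) := (congrArg (fun T : H →L[ℂ] H => T ζ) hi).symm
    have h3 : ‖s j ζ‖ ≤ ‖e1 i ζ‖ := by
      rw [h2]
      exact Upper_proj_norm (hs.proj j) _
    exact (pow_le_pow_left₀ (norm_nonneg _) h3 2).trans (hfine i)
  have hsb : ∀ (l : Fin d) (j : Fin k), ‖s j (b l : H)‖ ^ 2 ≤ Cs ^ 2 * η₁ := by
    intro l j
    have h2 : ‖s j (b l : H)‖ ≤ Cs * ‖s j ζ‖ :=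
      (hC l (s j) fun i => h.comm _ (hs.mem j) _ (he0.mem i)).trans
        (mul_le_mul_of_nonneg_right (hCk l) (norm_nonneg _))
    calc ‖s j (b l : H)‖ ^ 2 ≤ (Cs * ‖s j ζ‖) ^ 2 := pow_le_pow_left₀ (norm_nonneg _) h2 2
      _ = Cs ^ 2 * ‖s j ζ‖ ^ 2 := mul_pow _ _ _
      _ ≤ Cs ^ 2 * η₁ := mul_le_mul_of_nonneg_left (hsζ j) (by positivity)
  obtain ⟨χ, hχ⟩ := exists_good_color hr1 hs x (fun l : Fin d => (b l : H)) hsb
  have hbn : ∀ l, ‖(b l : H)‖ = 1 := fun l => b.orthonormal.1 l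
  have hβ0 : 0 ≤ κ / ((d : ℝ) ^ 2 + 1) := by positivity
  have hβ : ∀ l l', ‖⟪(b l' : H), defect s χ x (b l)⟫_ℂ‖ ≤ κ / ((d : ℝ) ^ 2 + 1) := by
    intro l l'
    have h2 := hχ l l'
    simp only [hbn, one_pow, Finset.sum_const, Finset.card_univ, Fintype.card_fin,
      nsmul_eq_mul, mul_one] at h2
    have h3 : 2 * (d : ℝ) * d * ‖x‖ ^ 2 * (Cs ^ 2 * η₁) ≤ (κ / ((d : ℝ) ^ 2 + 1)) ^ 2 := by
      have e1 : 2 * (d : ℝ) * d * ‖x‖ ^ 2 * (Cs ^ 2 * η₁) = K * η₁ := by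
        rw [hK]
        ring
      rw [e1, hη₁, mul_div_assoc', div_le_iff₀ (by positivity)]
      nlinarith [sq_nonneg (κ / ((d : ℝ) ^ 2 + 1))]
    exact le_of_sq_le_sq (h2.trans h3) hβ0
  have hD : ‖V.starProjection * defect s χ x * V.starProjection‖ ≤ κ := by
    refine (Upper_compress b (defect s χ x) hβ0 hβ).trans ?_
    rw [Fintype.card_fin, mul_div_assoc', div_le_iff₀ (by positivity)]
    nlinarith [sq_nonneg (d : ℝ)]
  set α : Fin k → ℝ := fun j => (⟪s j ζ, x (s j ζ)⟫_ℂ).re / ‖s j ζ‖ ^ 2 with hα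
  have hαX : ∀ j, |α j| ≤ ‖x‖ := by
    intro j
    simp only [hα]
    rw [abs_div, abs_of_nonneg (sq_nonneg ‖s j ζ‖)]
    apply div_le_of_le_mul₀ (sq_nonneg _) (norm_nonneg _)
    calc |(⟪s j ζ, x (s j ζ)⟫_ℂ).re| ≤ ‖⟪s j ζ, x (s j ζ)⟫_ℂ‖ := Complex.abs_re_le_norm _
      _ ≤ ‖s j ζ‖ * ‖x (s j ζ)‖ := norm_inner_le_norm _ _
      _ ≤ ‖s j ζ‖ * (‖x‖ * ‖s j ζ‖) :=
          mul_le_mul_of_nonneg_left (x.le_opNorm _) (norm_nonneg _)
      _ = ‖x‖ * ‖s j ζ‖ ^ 2 := by ring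
  set B : H →L[ℂ] H := ∑ j, (α j : ℂ) • s j with hB
  have hBn : ‖B‖ ≤ ‖x‖ := Upper_diag_norm hs α (norm_nonneg _) hαX
  have hBA : B ∈ A := A.sum_mem fun j _ => A.smul_mem (hs.mem j) _
  have hBs : IsSelfAdjoint B := by
    refine isSelfAdjoint_sum _ fun j _ => ?_
    rw [Complex.coe_smul]
    exact IsSelfAdjoint.smul (IsSelfAdjoint.all (α j)) (hs.proj j).isSelfAdjoint
  set q := V.starProjection with hq
  have hzero : q * (∑ j, s j * x * s j - B) * q = 0 := by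
    ext ξ
    have h2 : ∀ η : H, ⟪η, (q * (∑ j, s j * x * s j - B) * q) ξ⟫_ℂ = 0 := by
      intro η
      change ⟪η, q ((∑ j, s j * x * s j - B) (q ξ))⟫_ℂ = 0
      rw [← Upper_sa (isStarProjection_starProjection (U := V)).isSelfAdjoint]
      exact Upper_diag he0 hs hsp hx ζ (q ξ) (q η) (V.starProjection_apply_mem ξ)
        (V.starProjection_apply_mem η)
    exact inner_self_eq_zero.1 (h2 _)
  have hr1' : 1 / (r : ℝ) ≤ 1 := by
    rw [div_le_one hrR]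
    exact_mod_cast hr1
  refine ⟨colP s χ, (1 - 1 / (r : ℂ)) • B, q, colP_part hs χ, A.smul_mem hBA _, ?_, ?_,
    mem_BH _, isStarProjection_starProjection, ?_, ?_⟩
  · have e1 : (1 - 1 / (r : ℂ)) = (((1 - 1 / r : ℝ)) : ℂ) := by push_cast; ring
    rw [e1, Complex.coe_smul]
    exact IsSelfAdjoint.smul (IsSelfAdjoint.all _) hBs
  · have e1 : (1 - 1 / (r : ℂ)) = (((1 - 1 / r : ℝ)) : ℂ) := by push_cast; ring
    rw [e1, norm_smul, Complex.norm_real, Real.norm_eq_abs, abs_of_nonneg (by linarith)]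
    have h2 : 0 < 1 / (r : ℝ) := by positivity
    calc (1 - 1 / (r : ℝ)) * ‖B‖ ≤ 1 * ‖x‖ :=
          mul_le_mul (by linarith) hBn (norm_nonneg _) zero_le_one
      _ = ‖x‖ := one_mul _
  · intro ξ hξ
    obtain ⟨v, hv, hξv⟩ := happ ξ hξ
    have h2 : (1 - q) ξ = (1 - q) (ξ - v) := by
      rw [map_sub]
      have h3 : (1 - q) v = 0 := by
        change v - q v = 0
        rw [hq, Submodule.starProjection_eq_self_iff.2 hv, sub_self]
      rw [h3, sub_zero]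
    rw [h2]
    exact (Upper_proj_norm (isStarProjection_starProjection (U := V)).one_sub _).trans_lt hξv
  · have e1 : ∑ i, colP s χ i * x * colP s χ i - (1 - 1 / (r : ℂ)) • B =
        defect s χ x + (1 - 1 / (r : ℂ)) • (∑ j, s j * x * s j - B) + (1 / (r : ℂ)) • x := by
      unfold defect
      rw [smul_sub]
      abel
    have e2 : q * (∑ i, colP s χ i * x * colP s χ i - (1 - 1 / (r : ℂ)) • B) * q =
        q * defect s χ x * q + (1 - 1 / (r : ℂ)) • (q * (∑ j, s j * x * s j - B) * q) +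
          (1 / (r : ℂ)) • (q * x * q) := by
      rw [e1]
      simp only [mul_add, add_mul, mul_smul_comm, smul_mul_assoc]
    rw [e2, hzero, smul_zero, add_zero]
    have h3 : ‖(1 / (r : ℂ)) • (q * x * q)‖ ≤ 1 / r * ‖x‖ := by
      rw [norm_smul]
      have e3 : ‖(1 / (r : ℂ))‖ = 1 / (r : ℝ) := by simp
      rw [e3]
      apply mul_le_mul_of_nonneg_left _ (by positivity)
      have h4 : ‖q‖ ≤ 1 := V.starProjection_norm_le
      calc ‖q * x * q‖ ≤ ‖q‖ * ‖x‖ * ‖q‖ := (norm_mul_le _ _).trans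
            (mul_le_mul_of_nonneg_right (norm_mul_le _ _) (norm_nonneg _))
        _ ≤ 1 * ‖x‖ * 1 := by gcongr
        _ = ‖x‖ := by ring
    calc ‖q * defect s χ x * q + (1 / (r : ℂ)) • (q * x * q)‖
        ≤ κ + 1 / r * ‖x‖ := (norm_add_le _ _).trans (add_le_add hD h3)
      _ = ε * ‖x‖ := by
          rw [hκ]
          ring

end Vale.Agent.P078
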